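import Vale.Agent.P235L.Defs

/-! P235: clique sums with thin sets of attachments. Definitions only. -/

namespace Vale.Agent.Q235

open Vale.Agent.P235 Vale.Agent.P235.H134 Vale.Agent.P235.K5 Vale.Agent.P235L

/-- `M` is an `X`-rooted minor of `G`: a minor (as in `IsMinor`) all of whose branch sets contain a
vertex of `X`. -/
def RootedMinor {W V : Type} (M : SimpleGraph W) (G : SimpleGraph V) (X : Set V) : Prop :=
  ∃ μ : W → Set V, (∀ a, (G.induce (μ a)).Connected) ∧ (∀ a b, a ≠ b → Disjoint (μ a) (μ b)) ∧
    (∀ a b, M.Adj a b → ∃ x ∈ μ a, ∃ y ∈ μ b, G.Adj x y) ∧ ∀ a, ∃ x ∈ μ a, x ∈ X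

/-- `G` is `(a, g, p, w)`-almost embeddable (word for word as in `AlmostEmb`) with the apex set `A`,
and all vertices of `X` are vertices of vortices. -/
def AlmostAt (a g p w : ℕ) {V : Type} (G : SimpleGraph V) (A X : Set V) : Prop :=
  ∃ (G₀ : SimpleGraph V) (n : Fin p → ℕ) (x : ∀ i, Fin (n i) → V)
    (B : ∀ i, Fin (n i) → Finset V),
    A.ncard ≤ a ∧ Vortices G G₀ A w x B ∧ Drawn g (fans G₀ x) ∧ ∀ v ∈ X, ∃ i j, v ∈ B i j

/-- A graph `G` with two vertex sets `A`, `X`: either `G` is `(a, g, p, w)`-almost embeddable with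
the apices `A` and with `X` inside the vortices; or `c₁(G) ≤ D`, `A` has at most `a` vertices, and
the `r × r` grid is not an `X`-rooted minor of `G`. -/
def Tame (a g p w r : ℕ) (D : ℝ) (V : Type) (G : SimpleGraph V) (A X : Set V) : Prop :=
  AlmostAt a g p w G A X ∨ (DistortionLE G D ∧ A.ncard ≤ a ∧ ¬ RootedMinor (grid r) G X)

/-- `H` is glued from any number of pieces `H[B t]` along cliques of any size (`Adh B t` is the root
clique, along which the piece `t` is glued on). Every piece comes with two sets `A t`, `X t` such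
that `P` holds for the piece with (its vertices in) these sets, and with a level `lev t ≤ j`. Every
piece `s` but the first hangs on an earlier piece `t` which contains its root clique, and either `s`
has a larger level than `t` (so this happens at most `j` times on each branch of the tree), or it
has the same level and its root clique lies in the union of `A t`, `X t` and the root clique of `t`,
or it has the same level and its root clique has at most one vertex outside `A t` and the root
clique of `t`. -/
def HungSum (P : ∀ V : Type, SimpleGraph V → Set V → Set V → Prop) (j : ℕ) {V : Type}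
    (H : SimpleGraph V) : Prop :=
  ∃ (m n : ℕ) (B A X : ℕ → Set V) (lev : ℕ → ℕ), Glued m H n B ∧
    (∀ t < n, lev t ≤ j ∧ P (B t) (H.induce (B t)) {v | v.1 ∈ A t} {v | v.1 ∈ X t}) ∧
    ∀ s < n, 0 < s → ∃ t < s, Adh B s ⊆ B t ∧ (lev t < lev s ∨ lev t = lev s ∧
      (Adh B s ⊆ A t ∪ X t ∪ Adh B t ∨ (Adh B s \ (A t ∪ Adh B t)).Subsingleton))

/-- `H` is glued from any number of pieces `H[B t]` along cliques. The pieces with `t ∈ S` are drawn
on a surface of Euler genus at most `g`; for the others `P` holds with the sets `A t`, `X t`. Every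
piece `s` but the first hangs on an earlier piece `t` which contains its root clique; if one of `s`,
`t` is in `S`, this clique has at most three vertices; if `t` is not in `S`, it lies in the union of
`A t`, `X t` and the root clique of `t`. -/
def MixSum (P : ∀ V : Type, SimpleGraph V → Set V → Set V → Prop) (g : ℕ) {V : Type}
    (H : SimpleGraph V) : Prop :=
  ∃ (m n : ℕ) (B A X : ℕ → Set V) (S : Set ℕ), Glued m H n B ∧
    (∀ t < n, (t ∈ S → Drawn g (H.induce (B t))) ∧
      (t ∉ S → P (B t) (H.induce (B t)) {v | v.1 ∈ A t} {v | v.1 ∈ X t})) ∧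
    ∀ s < n, 0 < s → ∃ t < s, Adh B s ⊆ B t ∧ (s ∈ S ∨ t ∈ S → (Adh B s).ncard ≤ 3) ∧
      (t ∉ S → Adh B s ⊆ A t ∪ X t ∪ Adh B t)

end Vale.Agent.Q235
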