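import Vale.Agent.Q235.Thin
import Vale.Agent.P235T.Core
import Vale.Agent.P235G.E1.All
import Vale.Agent.P235.K5.GX.H43.CX5

/-! P235: sums of graphs on surfaces and of graphs with thin sets of attachments. -/

namespace Vale.Agent.Q235

open SimpleGraph Vale.Agent.P235 Vale.Agent.P235.H134 Vale.Agent.P235.K5 Vale.Agent.P235.ST.H742
open Vale.Agent.P235L Vale.Agent.P235A Vale.Agent.P235G.E1

theorem tw_apex {V : Type} [Finite V] {K : SimpleGraph V} {Z : Set V} {k s : ℕ} (hZ : Z.ncard ≤ s)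
    (h : TreewidthLE (K.induce Zᶜ) k) : TreewidthLE K (k + s) := by
  classical
  obtain ⟨ι, hι, T, C, h1, h2, h3, h4, h5⟩ := h
  let F := (Set.toFinite Z).toFinset
  have hF : ∀ v, v ∈ F ↔ v ∈ Z := fun v => Set.Finite.mem_toFinset _
  have inl : ∀ t (z : ↥Zᶜ), z ∈ C t → z.1 ∈ (C t).image Subtype.val ∪ F := fun t z hz =>
    Finset.mem_union_left _ (Finset.mem_image_of_mem _ hz)
  have inr : ∀ t, ∀ z ∈ Z, z ∈ (C t).image Subtype.val ∪ F := fun t z hz =>
    Finset.mem_union_right _ ((hF z).2 hz)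
  obtain ⟨t0⟩ := h1.connected.nonempty
  have cov : ∀ v, ∃ t, v ∈ (C t).image Subtype.val ∪ F := by
    intro v
    by_cases hv : v ∈ Z
    · exact ⟨t0, inr t0 v hv⟩
    · obtain ⟨t, ht⟩ := h2 ⟨v, hv⟩
      exact ⟨t, inl t _ ht⟩
  refine ⟨ι, hι, T, fun t => (C t).image Subtype.val ∪ F, h1, cov, fun u v huv => ?_, fun v => ?_,
    fun t => ?_⟩
  · by_cases hu : u ∈ Z
    · obtain ⟨t, ht⟩ := cov v
      exact ⟨t, inr t u hu, ht⟩
    by_cases hv : v ∈ Z
    · obtain ⟨t, ht⟩ := cov u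
      exact ⟨t, ht, inr t v hv⟩
    · obtain ⟨t, a, b⟩ := h3 ⟨u, hu⟩ ⟨v, hv⟩ huv
      exact ⟨t, inl t _ a, inl t _ b⟩
  · by_cases hv : v ∈ Z
    · intro a b
      exact (h1.connected.preconnected a.1 b.1).map
        (⟨fun t => ⟨t, inr t v hv⟩, fun h => h⟩ :
          T →g T.induce {t | v ∈ (C t).image Subtype.val ∪ F})
    · have e : {t | v ∈ (C t).image Subtype.val ∪ F} = {t | (⟨v, hv⟩ : ↥Zᶜ) ∈ C t} := by
        ext t
        refine ⟨fun a => ?_, fun a => inl t _ a⟩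
        rcases Finset.mem_union.1 a with a | a
        · obtain ⟨z, a1, rfl⟩ := Finset.mem_image.1 a
          exact a1
        · exact absurd ((hF v).1 a) hv
      rw [e]
      exact h4 _
  · have a1 : F.card ≤ s := by rwa [← Set.ncard_eq_toFinset_card]
    have a2 := (Finset.card_image_le (s := C t) (f := Subtype.val)).trans (h5 t)
    have a3 := Finset.card_union_le ((C t).image Subtype.val) F
    show ((C t).image Subtype.val ∪ F).card ≤ _
    omega

theorem Drawn.comap' {g : ℕ} {W V : Type} {G : SimpleGraph W} {H : SimpleGraph V} (h : Drawn g H)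
    (φ : W → V) (hφ : Function.Injective φ) (hadj : ∀ x y, G.Adj x y → H.Adj (φ x) (φ y)) :
    Drawn g G := by
  obtain ⟨U, hU, K, f, h1, h2, h3, h4⟩ := h
  exact ⟨U, hU, K, f ∘ φ, h1, h2, h3.comp hφ, fun a b hab => h4 _ _ (hadj a b hab)⟩

/-- neighbouring pieces of bounded treewidth are merged -/
theorem merge {V : Type} [Finite V] {H : SimpleGraph V} {m n g k : ℕ} {B : ℕ → Set V}
    (h : Glued m H n B) (T : BTree n B) (S : Set ℕ)
    (h1 : ∀ t < n, t ∈ S → Drawn g (H.induce (B t)))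
    (h2 : ∀ t < n, t ∉ S → TreewidthLE (H.induce (B t)) k)
    (h3 : ∀ s < n, 0 < s → s ∈ S ∨ T.par s ∈ S → (Adh B s).ncard ≤ 3) :
    CliqueSum 3 (fun _ B _ => SPiece g (k + 3) B ∨ QPiece g (k + 3) B) H := by
  classical
  let Rt : ℕ → Prop := fun t => t = 0 ∨ t ∈ S ∨ T.par t ∈ S
  have ex : ∀ N : ℕ, ∃ cl : ℕ → ℕ, ∀ t < N, t < n → (Rt t → cl t = t) ∧
      (¬ Rt t → cl t = cl (T.par t)) := by
    intro N
    induction N with
    | zero => exact ⟨id, fun t ht => by omega⟩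
    | succ N ih =>
      obtain ⟨cl, hcl⟩ := ih
      refine ⟨Function.update cl N (if Rt N then N else cl (T.par N)), fun t ht htn => ?_⟩
      have hp : ¬ Rt t → T.par t < t := fun a =>
        T.par_lt t (Nat.pos_of_ne_zero fun e => a (Or.inl e)) htn
      by_cases e : t = N
      · subst e
        rw [Function.update_self]
        exact ⟨fun a => if_pos a, fun a => by
          rw [if_neg a, Function.update_of_ne (hp a).ne]⟩
      · rw [Function.update_of_ne e]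
        refine ⟨(hcl t (by omega) htn).1, fun a => ?_⟩
        have := hp a
        rw [Function.update_of_ne (by omega)]
        exact (hcl t (by omega) htn).2 a
  obtain ⟨cl, hcl⟩ := ex n
  have hp : ∀ t < n, ¬ Rt t → T.par t < t := fun t ht a =>
    T.par_lt t (Nat.pos_of_ne_zero fun e => a (Or.inl e)) ht
  have c1 : ∀ t, t < n → cl t ≤ t ∧ Rt (cl t) ∧ (cl t ∈ S → cl t = t) := by
    intro t
    induction t using Nat.strong_induction_on with
    | _ t ih =>
      intro ht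
      by_cases a : Rt t
      · rw [(hcl t ht ht).1 a]
        exact ⟨le_rfl, a, fun _ => rfl⟩
      · have b := hp t ht a
        obtain ⟨b1, b2, b3⟩ := ih _ b (b.trans ht)
        rw [(hcl t ht ht).2 a]
        exact ⟨b1.trans b.le, b2, fun c => absurd (Or.inr (Or.inr (b3 c ▸ c))) a⟩
  have c2 : ∀ v s, s < n → v ∈ B s → cl s = cl (h.it v) ∨ v ∈ Adh B (cl s) := by
    intro v s
    induction s using Nat.strong_induction_on with
    | _ s ih =>
      intro hs hv
      by_cases e : h.it v = s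
      · exact Or.inl (by rw [e])
      have a1 : h.it v < s := lt_of_le_of_ne (h.it_le hs hv) e
      have a2 : v ∈ Adh B s := (h.mem_adh_iff hs).2 ⟨hv, a1⟩
      by_cases a : Rt s
      · rw [(hcl s hs hs).1 a]
        exact Or.inr a2
      · have b := hp s hs a
        rw [(hcl s hs hs).2 a]
        exact ih _ b (b.trans hs) (T.adh s (by omega) hs a2)
  let B' : ℕ → Set V := fun t => {v | ∃ s < n, cl s = t ∧ v ∈ B s}
  have hit : ∀ v, v ∈ B' (cl (h.it v)) := fun v => ⟨_, h.it_lt v, rfl, h.it_mem v⟩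
  have c3 : ∀ t, ∀ v ∈ B' t, t = cl (h.it v) ∨ (v ∈ Adh B t ∧ cl (h.it v) < t) := by
    rintro t v ⟨s, hs, rfl, hv⟩
    refine (c2 v s hs hv).imp_right fun a => ⟨a, ?_⟩
    exact lt_of_le_of_lt (c1 _ (h.it_lt v)).1
      ((h.mem_adh_iff (lt_of_le_of_lt (c1 s hs).1 hs)).1 a).2
  have c4 : ∀ t v, v ∈ Bef B' t → cl (h.it v) < t := by
    rintro t v ⟨s, hs, hv⟩
    rcases c3 s v hv with a | a <;> omega
  have c5 : ∀ t, Adh B' t ⊆ Adh B t := fun t v hv => by
    have := c4 t v hv.2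
    exact ((c3 t v hv.1).resolve_left (by omega)).1
  have c6 : ∀ t < n, (B' t).Nonempty → (Adh B t).ncard ≤ 3 := by
    rintro t ht ⟨v, s, hs, rfl, -⟩
    rcases Nat.eq_zero_or_pos (cl s) with e | e
    · have : Adh B (cl s) = ∅ := Set.eq_empty_of_forall_notMem fun v ⟨_, u, hu, _⟩ => by omega
      rw [this, Set.ncard_empty]
      omega
    · exact h3 _ ht e ((c1 s hs).2.1.resolve_left (by omega))
  refine ⟨n, B', ⟨fun v => ⟨_, lt_of_le_of_lt (c1 _ (h.it_lt v)).1 (h.it_lt v), hit v⟩,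
    fun t ht => ?_, fun t ht u hu v hv => h.clique t ht u (c5 t hu) v (c5 t hv),
    fun t ht u v hu hu' hv hv' huv => ?_⟩, fun t ht => Or.inl ?_⟩
  · rcases (Adh B' t).eq_empty_or_nonempty with e | ⟨v, hv⟩
    · rw [e, Set.ncard_empty]
      omega
    · exact (Set.ncard_le_ncard (c5 t)).trans (c6 t ht ⟨v, hv.1⟩)
  · have a1 : t = cl (h.it u) := (c3 t u hu).resolve_right fun a => hu' ⟨_, a.2, hit u⟩
    rcases le_total (h.it v) (h.it u) with a | a
    · exact hv' ⟨_, h.it_lt u, a1.symm, h.edge huv.symm a⟩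
    · exact hu' ⟨_, c4 t v hv, _, h.it_lt v, rfl, h.edge huv a⟩
  · by_cases a : t ∈ S
    · have sub : B' t ⊆ B t := by
        rintro v ⟨s, hs, rfl, hv⟩
        rwa [(c1 s hs).2.2 a]
      exact Or.inl (Drawn.comap' (h1 t ht a) (fun z : B' t => ⟨z.1, sub z.2⟩)
        (fun _ _ e => Subtype.ext (congrArg (fun z : B t => z.1) e)) fun _ _ b => b)
    · right
      rcases (B' t).eq_empty_or_nonempty with e | e
      · refine tw_small ?_
        rw [e, Set.ncard_empty]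
        omega
      have key : ∀ z : ↥{z : B' t | z.1 ∈ Adh B t}ᶜ, h.it z.1.1 ∉ S ∧ h.it z.1.1 < n := by
        intro z
        refine ⟨fun b => a ?_, h.it_lt _⟩
        rw [(c3 t _ z.1.2).resolve_right fun c => z.2 c.1,
          (hcl _ (h.it_lt _) (h.it_lt _)).1 (Or.inr (Or.inl b))]
        exact b
      refine tw_apex (Z := {z : B' t | z.1 ∈ Adh B t})
        ((Set.ncard_le_ncard_of_injOn Subtype.val (fun _ b => b)
          Subtype.val_injective.injOn).trans (c6 t ht e)) ?_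
      exact TreewidthLE.comap (fun z => (⟨z.1.1, key z⟩ : {v | h.it v ∉ S ∧ h.it v < n}))
        (fun _ _ e => Subtype.ext (Subtype.ext
          (congrArg (fun z : {v | h.it v ∉ S ∧ h.it v < n} => z.1) e)))
        (fun _ _ b => b) (P235T.tw_cls h (fun t => t ∉ S) h2 n le_rfl)

/-- **Sums of graphs on surfaces and of graphs with thin sets of attachments.** -/
theorem mix_sum (g : ℕ) (D : ℝ) (r c : ℕ) : ∃ C : ℝ, ∀ (V : Type) [Finite V]
    (H : SimpleGraph V), H.Connected →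
    MixSum (fun _ B A X => DistortionLE B D ∧ A.ncard ≤ c ∧ ¬ RootedMinor (grid r) B X) g H →
    DistortionLE H C := by
  classical
  obtain ⟨A₀, -, hA₀⟩ := P235L.surf
  obtain ⟨D', hD1, hD2, hD3⟩ : ∃ D' : ℝ, 1 ≤ D' ∧ D ≤ D' ∧ A₀ * Real.log (g + 2) ≤ D' :=
    ⟨max 1 (max D _), le_max_left _ _, (le_max_left _ _).trans (le_max_right _ _),
      (le_max_right _ _).trans (le_max_right _ _)⟩
  obtain ⟨N, hN⟩ := P235T.clique_bd D'
  obtain ⟨k, hk⟩ := thin_tw r
  obtain ⟨K, hK⟩ := P235G.E1.final.1 g (k + (c + N) + 3)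
  obtain ⟨q, -, hq⟩ := H23.badKStmt H406.mono D'
  obtain ⟨C, hC1, hC⟩ := conRetr q
  refine ⟨max D' (3400000 * D' * (max K 1 * C)), ?_⟩
  rintro V _ H hc ⟨m, n, B, A, X, S, h, hP, hang⟩
  have ex : ∀ s, ∃ t, t ≤ s ∧ (s < n → 0 < s → t < s ∧ Adh B s ⊆ B t ∧
      (s ∈ S ∨ t ∈ S → (Adh B s).ncard ≤ 3) ∧ (t ∉ S → Adh B s ⊆ A t ∪ X t ∪ Adh B t)) := by
    intro s
    by_cases a : s < n ∧ 0 < s
    · obtain ⟨t, a1, a2⟩ := hang s a.1 a.2
      exact ⟨t, a1.le, fun _ _ => ⟨a1, a2⟩⟩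
    · exact ⟨s, le_rfl, fun b c => absurd ⟨b, c⟩ a⟩
  choose par p1 p3 using ex
  let T : BTree n B := ⟨par, Nat.le_zero.1 (p1 0), p1, fun t a b => (p3 t b a).1,
    fun t a b => (p3 t b a).2.1⟩
  have hsub : ∀ t < n, ∀ (W : Type) [Finite W] (G : SimpleGraph W) (φ : W → B t), G.Connected →
      Function.Injective φ → (∀ x y, G.Adj x y → (H.induce (B t)).Adj (φ x) (φ y)) →
      DistortionLE G D' := by
    intro t ht W _ G φ a1 a2 a3
    by_cases a : t ∈ S
    · obtain ⟨U, _, K, f, b1, b2, b3, b4⟩ := Drawn.comap' ((hP t ht).1 a) φ a2 a3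
      exact ((hA₀ g U K b1 b2).emb f b3 b4 b1 a1).mono hD3
    · have : Nonempty (B t) := a1.nonempty.map φ
      exact (((hP t ht).2 a).1.emb φ a2 a3
        ⟨K5.GX.H43.CX.bag_conn h hc.preconnected t ht⟩ a1).mono hD2
  let Y : Set V := {v | h.it v ∈ S ∨ v ∈ A (h.it v) ∪ X (h.it v) ∪ Adh B (h.it v)}
  have y1 : ∀ v t, t < n → v ∈ Adh B t → v ∈ Y := by
    intro v t
    induction t using Nat.strong_induction_on with
    | _ t ih =>
      intro ht hv
      have a0 := ((h.mem_adh_iff ht).1 hv).2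
      obtain ⟨a1, a2, -, a3⟩ := p3 t ht (by omega)
      by_cases e : h.it v = par t
      · by_cases b : par t ∈ S
        · exact Or.inl (e ▸ b)
        · exact Or.inr (e ▸ a3 b hv)
      · exact ih _ a1 (a1.trans ht) ((h.mem_adh_iff (a1.trans ht)).2
          ⟨a2 hv, lt_of_le_of_ne (h.it_le (a1.trans ht) (a2 hv)) e⟩)
  have y2 : ∀ v ∉ Y, ∀ t < n, v ∈ B t → h.it v = t := fun v hv t ht a => by
    by_contra e
    exact hv (y1 v t ht ((h.mem_adh_iff ht).2 ⟨a, lt_of_le_of_ne (h.it_le ht a) e⟩))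
  have inbag : ∀ u v, H.Adj u v → ∃ t < n, u ∈ B t ∧ v ∈ B t := by
    intro u v huv
    rcases le_total (h.it u) (h.it v) with a | a
    · exact ⟨_, h.it_lt v, h.edge huv a, h.it_mem v⟩
    · exact ⟨_, h.it_lt u, h.it_mem u, h.edge huv.symm a⟩
  have y3 : ∀ v ∉ Y, ∀ t < n, v ∈ B t → ∀ z, H.Adj v z → z ∈ B t := by
    intro v hv t ht a z hz
    obtain ⟨s, hs, b1, b2⟩ := inbag v z hz
    rwa [← y2 v hv t ht a, y2 v hv s hs b1]
  have hcomp : ∀ u ∉ Y, DistortionLE (H.induce (compSet H Y u)) D' := by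
    intro u hu
    have key : ∀ (a b : V) (ρ : H.Walk a b), (∀ z ∈ ρ.support, z ∉ Y) → a ∈ B (h.it u) →
        b ∈ B (h.it u) := by
      intro a b ρ
      induction ρ with
      | nil => exact fun _ a => a
      | @cons a c b hac ρ ih =>
        exact fun hρ ha => ih (fun z hz => hρ z (by simp [hz]))
          (y3 a (hρ a (by simp)) _ (h.it_lt u) ha c hac)
    have sub : ∀ z : compSet H Y u, z.1 ∈ B (h.it u) := fun ⟨z, ρ, hρ⟩ =>
      key u z ρ hρ (h.it_mem u)
    exact hsub _ (h.it_lt u) _ _ (fun z => ⟨z.1, sub z⟩) (comp_connected hu)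
      (fun _ _ e => Subtype.ext (congrArg (fun z : B (h.it u) => z.1) e)) fun _ _ a => a
  rcases Y.eq_empty_or_nonempty with e | hY
  · rw [e] at hcomp
    exact (distortion_of_empty hc hcomp).mono (le_max_left _ _)
  refine (thmT hc hY (le_max_right K 1) hD1 hC1 (fun ℓ hℓ => hC V H ℓ hc hℓ _ hY fun u hu hm =>
    hq _ _ (comp_connected hu) hm (hcomp u hu)) (fun π hπ => ?_) hcomp).mono (le_max_right _ _)
  have stay : ∀ t < n, ∀ (z y : V) (ρ : H.Walk z y), (∀ x ∈ ρ.support, π x = y) →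
      ∀ hz : z ∈ B t, ∃ (hy : y ∈ B t) (ρ' : (H.induce (B t)).Walk ⟨z, hz⟩ ⟨y, hy⟩),
        ∀ x ∈ ρ'.support, π x.1 = y := by
    intro t ht z y ρ
    induction ρ with
    | @nil z =>
      intro hρ hz
      exact ⟨hz, Walk.nil, fun x hx => by
        rw [Walk.support_nil, List.mem_singleton] at hx
        rw [hx]
        exact hρ z (by simp)⟩
    | @cons z c y hzc ρ ih =>
      intro hρ hz
      have a0 : π z = y := hρ z (by simp)
      by_cases a : z ∈ Y
      · have e : z = y := (hπ.id z a).symm.trans a0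
        subst e
        exact ⟨hz, Walk.nil, fun x hx => by
          rw [Walk.support_nil, List.mem_singleton] at hx
          rw [hx]
          exact a0⟩
      · have a1 := y3 z a t ht hz c hzc
        obtain ⟨hy, ρ', h'⟩ := ih (fun x hx => hρ x (by simp [hx])) a1
        refine ⟨hy, Walk.cons (show (H.induce (B t)).Adj ⟨z, hz⟩ ⟨c, a1⟩ from hzc) ρ',
          fun x hx => ?_⟩
        rw [Walk.support_cons, List.mem_cons] at hx
        rcases hx with rfl | hx
        · exact a0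
        · exact h' x hx
  have πB : ∀ t < n, ∀ z ∈ B t, π z ∈ B t := fun t ht z hz => by
    obtain ⟨ρ, hρ⟩ := hπ.conn z
    exact (stay t ht z _ ρ hρ hz).1
  let B' : ℕ → Set Y := fun t => {y | y.1 ∈ B t}
  have adh : ∀ t (y : Y), y ∈ Adh B' t ↔ y.1 ∈ Adh B t := fun t y => Iff.rfl
  have lift : ∀ x y : Y, H.Adj x.1 y.1 → (rgraph H Y π).Adj x y := fun x y a =>
    ⟨fun e => a.ne (congrArg Subtype.val e), x.1, y.1, a, hπ.id _ x.2, hπ.id _ y.2⟩
  have both : ∀ x y : Y, (rgraph H Y π).Adj x y →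
      ∃ s < n, ∃ u ∈ B s, ∃ v ∈ B s, H.Adj u v ∧ π u = x ∧ π v = y := by
    rintro x y ⟨-, u, v, a, b1, b2⟩
    obtain ⟨s, hs, c1, c2⟩ := inbag u v a
    exact ⟨s, hs, u, c1, v, c2, a, b1, b2⟩
  have loc : ∀ t < n, ∀ x y : Y, x.1 ∈ B t → y.1 ∈ B t → (rgraph H Y π).Adj x y →
      ∃ u ∈ B t, ∃ v ∈ B t, H.Adj u v ∧ π u = x ∧ π v = y := by
    intro t ht x y hx hy a
    obtain ⟨s, hs, u, c1, v, c2, c3, c4, c5⟩ := both x y a
    have hne : x.1 ≠ y.1 := fun e => a.ne (Subtype.ext e)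
    have d1 : x.1 ∈ B s := c4 ▸ πB s hs u c1
    have d2 : y.1 ∈ B s := c5 ▸ πB s hs v c2
    rcases lt_trichotomy s t with e | e | e
    · exact ⟨x.1, hx, y.1, hy, h.clique t ht _ ⟨hx, s, e, d1⟩ _ ⟨hy, s, e, d2⟩ hne,
        hπ.id _ x.2, hπ.id _ y.2⟩
    · subst e
      exact ⟨u, c1, v, c2, c3, c4, c5⟩
    · exact ⟨x.1, hx, y.1, hy, h.clique s hs _ ⟨d1, t, e, hx⟩ _ ⟨d2, t, e, hy⟩ hne,
        hπ.id _ x.2, hπ.id _ y.2⟩
  have card : ∀ t, (Adh B' t).ncard ≤ (Adh B t).ncard := fun t =>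
    Set.ncard_le_ncard_of_injOn Subtype.val (fun _ a => a) Subtype.val_injective.injOn
  have hg : Glued m (rgraph H Y π) n B' := by
    refine ⟨fun y => h.cover y.1, fun t ht => (card t).trans (h.card t ht),
      fun t ht u hu v hv huv => lift u v (h.clique t ht _ hu _ hv fun e => huv (Subtype.ext e)),
      fun t ht u v hu hu' hv hv' huv => ?_⟩
    obtain ⟨s, hs, a, c1, b, c2, -, c4, c5⟩ := both u v huv
    have d1 : u.1 ∈ B s := c4 ▸ πB s hs a c1
    have d2 : v.1 ∈ B s := c5 ▸ πB s hs b c2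
    have e : h.it u.1 = t := le_antisymm (h.it_le ht hu)
      (not_lt.1 fun a => hu' ((h.mem_bef_iff ht.le).2 a))
    rcases h.mem_sub_or hs (e ▸ h.desc_of_mem (T := T) hs d1) d2 with f | f
    · have f1 : t ≤ h.it v.1 := BTree.Desc.le f
      have f2 := (h.mem_bef_iff ht.le).1 hv
      omega
    · exact hv' f.1
  let T' : BTree n B' := ⟨par, T.par_zero, p1, T.par_lt, fun t a b y hy => T.adh t a b hy⟩
  refine ((hK _ _ (rgraph_connected hπ hc hY) (Or.inr (Or.inr ⟨_, le_rfl,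
    merge hg T' S (fun t ht a => ?_) (fun t ht a => ?_) fun s hs h0 a =>
      (card s).trans ((p3 s hs h0).2.2.1 a)⟩))).2.1).mono (le_max_left _ _)
  · have fix : ∀ u ∈ B t, π u = u := fun u hu => hπ.id u (by
      by_contra b
      exact b (Or.inl (by rw [y2 u b t ht hu]; exact a)))
    refine Drawn.comap' ((hP t ht).1 a) (fun z : B' t => ⟨z.1.1, z.2⟩)
      (fun _ _ e => Subtype.ext (Subtype.ext (congrArg (fun z : B t => z.1) e))) fun x y b => ?_
    obtain ⟨u, c1, v, c2, c3, c4, c5⟩ := loc t ht x.1 y.1 x.2 y.2 b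
    rw [fix u c1] at c4
    rw [fix v c2] at c5
    show H.Adj x.1.1 y.1.1
    rwa [← c4, ← c5]
  · obtain ⟨-, a2, a3⟩ := (hP t ht).2 a
    let σ : B t → B t := fun z => ⟨π z.1, πB t ht z.1 z.2⟩
    have hσ : RContr (H.induce (B t)) {z | z.1 ∈ Y} σ := by
      refine ⟨fun z => hπ.mem z.1, fun z hz => Subtype.ext (hπ.id z.1 hz), fun z => ?_⟩
      obtain ⟨ρ, hρ⟩ := hπ.conn z.1
      obtain ⟨hy, ρ', h'⟩ := stay t ht z.1 _ ρ hρ z.2
      exact ⟨ρ', fun x hx => Subtype.ext (h' x hx)⟩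
    have tw := hk _ _ {v : B t | v.1 ∈ X t} _ ({v : B t | v.1 ∈ A t} ∪ {v | v.1 ∈ Adh B t}) σ hσ
      (fun z hz => by
        by_cases e : h.it z.1 = t
        · have b0 : h.it z.1 ∈ S ∨ z.1 ∈ A (h.it z.1) ∪ X (h.it z.1) ∪ Adh B (h.it z.1) := hz
          rw [e] at b0
          have b := b0.resolve_left a
          rcases b with (b | b) | b
          · exact Or.inr (Or.inl b)
          · exact Or.inl b
          · exact Or.inr (Or.inr b)
        · exact Or.inr (Or.inr ((h.mem_adh_iff ht).2 ⟨z.2, lt_of_le_of_ne (h.it_le ht z.2) e⟩)))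
      a3
    have hψ : Function.Injective fun z : B' t => (⟨z.1.1, z.2⟩ : B t) :=
      fun _ _ e => Subtype.ext (Subtype.ext (congrArg (fun z : B t => z.1) e))
    refine tw_apex (Z := {z : B' t | z.1.1 ∈ A t} ∪ {z | z.1.1 ∈ Adh B t})
      ((Set.ncard_union_le _ _).trans (add_le_add ?_ ?_)) ?_
    · exact (Set.ncard_le_ncard_of_injOn (t := {v : B t | v.1 ∈ A t})
        (fun z : B' t => (⟨z.1.1, z.2⟩ : B t)) (fun _ b => b) hψ.injOn).trans a2
    · exact (Set.ncard_le_ncard_of_injOn (t := Adh B t) (fun z : B' t => z.1.1) (fun _ b => b)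
        (Subtype.val_injective.comp Subtype.val_injective).injOn).trans
        (hN V H (B t) (Adh B t) (hsub t ht) (fun v hv => hv.1) (h.clique t ht))
    · refine TreewidthLE.comap (fun z => (⟨z.1.1.1, z.1.2⟩ : B t))
        (hψ.comp Subtype.val_injective) (fun x y b => ?_) tw
      obtain ⟨u, c1, v, c2, c3, c4, c5⟩ := loc t ht x.1.1 y.1.1 x.1.2 y.1.2 b
      exact ⟨fun e => b.ne (Subtype.ext (hψ e)), x.2, y.2, ⟨u, c1⟩, ⟨v, c2⟩, c3,
        Subtype.ext c4, Subtype.ext c5⟩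

end Vale.Agent.Q235
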