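import Vale.Agent.Q235.Thin

/-! P235: no large grid minor of an almost embedded graph is rooted at the vortices. -/

namespace Vale.Agent.Q235

open SimpleGraph Vale.Agent.P235 Vale.Agent.P235.H134 Vale.Agent.P235.ST.H742
open Vale.Agent.P235L Vale.Agent.P235A

variable {V : Type}

/-- any two points of `U` are joined inside `U` -/
def Con (K : SimpleGraph V) (U : Set V) : Prop := ∀ u ∈ U, ∀ v ∈ U, ReachOff K Uᶜ u v

theorem reach_mono {K : SimpleGraph V} {S T : Set V} (h : T ⊆ S) {u v : V}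
    (a : ReachOff K S u v) : ReachOff K T u v := by
  obtain ⟨q, hq⟩ := a
  exact ⟨q, fun z hz b => hq z hz (h b)⟩

theorem Con.union {K : SimpleGraph V} {U W : Set V} (h1 : Con K U) (h2 : Con K W) {z : V}
    (hU : z ∈ U) (hW : z ∈ W) : Con K (U ∪ W) := by
  have key : ∀ u ∈ U ∪ W, ReachOff K (U ∪ W)ᶜ u z := by
    rintro u (hu | hu)
    · exact reach_mono (Set.compl_subset_compl.2 Set.subset_union_left) (h1 u hu z hU)
    · exact reach_mono (Set.compl_subset_compl.2 Set.subset_union_right) (h2 u hu z hW)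
  exact fun u hu v hv => (key u hu).trans (key v hv).symm

theorem hit_card {I J : Type} [Finite I] (U : I → Set J)
    (hd : ∀ i i' z, z ∈ U i → z ∈ U i' → i = i') (F : Finset J) (h : ∀ i, ∃ z ∈ F, z ∈ U i) :
    Nat.card I ≤ F.card := by
  choose f h1 h2 using h
  have := Nat.card_le_card_of_injective (fun i => (⟨f i, h1 i⟩ : F)) fun i i' e =>
    hd i i' (f i) (h2 i) (by
      have e' : f i = f i' := congrArg Subtype.val e
      rw [e']
      exact h2 i')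
  simpa using this

/-- many crossing rows and columns force large treewidth -/
theorem cross_tw {J I I' : Type} [Finite I] [Finite I'] {N : SimpleGraph J} {k : ℕ}
    (hN : TreewidthLE N k) (U : I → Set J) (W : I' → Set J) (hU : ∀ i, Con N (U i))
    (hW : ∀ j, Con N (W j)) (dU : ∀ i i' z, z ∈ U i → z ∈ U i' → i = i')
    (dW : ∀ i i' z, z ∈ W i → z ∈ W i' → i = i') (hx : ∀ i j, ∃ z ∈ U i, z ∈ W j)
    (cI : k + 1 < Nat.card I) (cI' : k + 1 < Nat.card I') : False := by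
  obtain ⟨κ, _, T, C, h1, h2, h3, h4, h5⟩ := hN
  obtain ⟨t, ht⟩ := H749.helly h1 (fun a : I × I' => {t | ∃ z ∈ U a.1 ∪ W a.2, z ∈ C t}) Set.univ
    (fun a => by
      obtain ⟨z, a1, a2⟩ := hx a.1 a.2
      exact tree_union h3 h4 _ ((hU a.1).union (hW a.2) a1 a2) _ fun t => Iff.rfl)
    (fun a => by
      obtain ⟨z, a1, -⟩ := hx a.1 a.2
      obtain ⟨t, ht⟩ := h2 z
      exact ⟨t, z, Or.inl a1, ht⟩)
    (fun a _ b _ _ => by
      obtain ⟨z, a1, a2⟩ := hx a.1 b.2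
      obtain ⟨t, ht⟩ := h2 z
      exact ⟨t, ⟨z, Or.inl a1, ht⟩, z, Or.inr a2, ht⟩)
  have a1 : ¬ ∀ i, ∃ z ∈ C t, z ∈ U i := fun a => by
    have := hit_card U dU _ a
    have := h5 t
    omega
  have a2 : ¬ ∀ i, ∃ z ∈ C t, z ∈ W i := fun a => by
    have := hit_card W dW _ a
    have := h5 t
    omega
  obtain ⟨i, hi⟩ := not_forall.1 a1
  obtain ⟨j, hj⟩ := not_forall.1 a2
  obtain ⟨z, b | b, c⟩ := ht (i, j) trivial
  · exact hi ⟨z, c, b⟩
  · exact hj ⟨z, c, b⟩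

/-- the trace of a connected set which is mapped into itself -/
theorem Con.trace {K : SimpleGraph V} {Y U : Set V} {π : V → V} (hπ : RContr K Y π)
    (h : Con K U) (hU : ∀ v ∈ U, π v ∈ U) : Con (rgraph K Y π) {z | z.1 ∈ U} := by
  have key : ∀ (u v : V) (q : K.Walk u v), (∀ z ∈ q.support, z ∉ Uᶜ) →
      ReachOff (rgraph K Y π) {z : Y | z.1 ∈ U}ᶜ ⟨π u, hπ.mem u⟩ ⟨π v, hπ.mem v⟩ := by
    intro u v q
    induction q with
    | @nil u => exact fun hq => ReachOff.refl (not_not.2 (hU u (not_not.1 (hq u (by simp)))))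
    | @cons u c v huc q ih =>
      intro hq
      have a1 := hU u (not_not.1 (hq u (by simp)))
      have a2 := hU c (not_not.1 (hq c (by simp)))
      have a3 := ih fun z hz => hq z (by simp [hz])
      by_cases e : π u = π c
      · have : (⟨π u, hπ.mem u⟩ : Y) = ⟨π c, hπ.mem c⟩ := Subtype.ext e
        rw [this]
        exact a3
      · refine (ReachOff.adj (not_not.2 a1) (not_not.2 a2) ?_).trans a3
        exact ⟨fun e' => e (congrArg Subtype.val e'), u, c, huc, rfl, rfl⟩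
  intro a ha b hb
  obtain ⟨q, hq⟩ := h a.1 ha b.1 hb
  have := key _ _ q hq
  have e1 : (⟨π a.1, hπ.mem a.1⟩ : Y) = a := Subtype.ext (hπ.id _ a.2)
  have e2 : (⟨π b.1, hπ.mem b.1⟩ : Y) = b := Subtype.ext (hπ.id _ b.2)
  rwa [e1, e2] at this

/-- rows and columns made of rooted cells -/
theorem cells_tw {κ I I' : Type} [Finite I] [Finite I'] {K : SimpleGraph V} {Y : Set V} {k : ℕ}
    (hc : K.Connected) (hK : ∀ π, RContr K Y π → TreewidthLE (rgraph K Y π) k)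
    (β : κ → Set V) (hβ : ∀ a, Con K (β a)) (hY : ∀ a, ∃ z ∈ β a, z ∈ Y)
    (dβ : ∀ a b z, z ∈ β a → z ∈ β b → a = b) (row : I → Set κ) (col : I' → Set κ)
    (hU : ∀ i, Con K {z | ∃ a ∈ row i, z ∈ β a}) (hW : ∀ j, Con K {z | ∃ a ∈ col j, z ∈ β a})
    (dU : ∀ i i' a, a ∈ row i → a ∈ row i' → i = i')
    (dW : ∀ i i' a, a ∈ col i → a ∈ col i' → i = i') (hx : ∀ i j, ∃ a ∈ row i, a ∈ col j)
    (cI : k + 1 < Nat.card I) (cI' : k + 1 < Nat.card I') : False := by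
  let R : V → V → Prop := fun v u => K.Adj v u ∧ ∀ a, v ∈ β a → u ∈ β a
  have inside : ∀ a (u v : V) (q : K.Walk u v), (∀ z ∈ q.support, z ∉ (β a)ᶜ) →
      Relation.ReflTransGen R u v := by
    intro a u v q
    induction q with
    | nil => exact fun _ => .refl
    | @cons u c v huc q ih =>
      intro hq
      have a1 : u ∈ β a := not_not.1 (hq u (by simp))
      have a2 : c ∈ β a := not_not.1 (hq c (by simp))
      exact (ih fun z hz => hq z (by simp [hz])).head ⟨huc, fun b hb => dβ a b u a1 hb ▸ a2⟩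
  have cell : ∀ a, ∀ v ∈ β a, ∃ x ∈ Y, Relation.ReflTransGen R v x := by
    intro a v hv
    obtain ⟨z, a1, a2⟩ := hY a
    obtain ⟨q, hq⟩ := hβ a v hv z a1
    exact ⟨z, a2, inside a _ _ q hq⟩
  have : Nonempty I := Nat.card_pos_iff.1 (by omega) |>.1
  have : Nonempty I' := Nat.card_pos_iff.1 (by omega) |>.1
  obtain ⟨a0, -⟩ := hx (Classical.arbitrary I) (Classical.arbitrary I')
  obtain ⟨y0, -, hy0⟩ := hY a0
  have all : ∀ (v y : V) (_ : K.Walk v y), y ∈ Y → ∃ x ∈ Y, Relation.ReflTransGen R v x := by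
    intro v y q
    induction q with
    | nil => exact fun hy => ⟨_, hy, .refl⟩
    | @cons u c v huc q ih =>
      intro hy
      by_cases e : ∃ a, u ∈ β a
      · obtain ⟨a, ha⟩ := e
        exact cell a u ha
      · obtain ⟨x, a1, a2⟩ := ih hy
        exact ⟨x, a1, a2.head ⟨huc, fun a ha => absurd ⟨a, ha⟩ e⟩⟩
  obtain ⟨π, hπ, hR⟩ := contr_of_rel K Y R (fun _ _ a => a.1) fun v => by
    obtain ⟨q⟩ := hc.preconnected v y0
    exact all v y0 q hy0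
  have keep : ∀ a, ∀ v ∈ β a, π v ∈ β a := by
    intro a v hv
    have key : ∀ u, Relation.ReflTransGen R v u → u ∈ β a := by
      intro u hu
      induction hu with
      | refl => exact hv
      | tail _ b ih => exact b.2 a ih
    exact key _ (hR v)
  refine cross_tw (hK π hπ) (fun i => {z | z.1 ∈ {z | ∃ a ∈ row i, z ∈ β a}})
    (fun j => {z | z.1 ∈ {z | ∃ a ∈ col j, z ∈ β a}})
    (fun i => (hU i).trace hπ fun v ⟨a, b, c⟩ => ⟨a, b, keep a v c⟩)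
    (fun i => (hW i).trace hπ fun v ⟨a, b, c⟩ => ⟨a, b, keep a v c⟩) ?_ ?_ (fun i j => ?_) cI cI'
  · rintro i i' z ⟨a, b, c⟩ ⟨a', b', c'⟩
    exact dU i i' a b (dβ a a' _ c c' ▸ b')
  · rintro i i' z ⟨a, b, c⟩ ⟨a', b', c'⟩
    exact dW i i' a b (dβ a a' _ c c' ▸ b')
  · obtain ⟨a, b, c⟩ := hx i j
    obtain ⟨z, d, e⟩ := hY a
    exact ⟨⟨z, e⟩, ⟨a, b, d⟩, a, c, d⟩

theorem con_of_conn {K : SimpleGraph V} {S : Set V} (h : (K.induce S).Connected) : Con K S :=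
  fun _ hu _ hv => reach_of_conn (T := Sᶜ) h (fun _ hz a => a hz) hu hv

theorem con_path {K : SimpleGraph V} {r : ℕ} (μ : Fin r → Set V) (h1 : ∀ a, Con K (μ a))
    (h2 : ∀ a b : Fin r, a.val + 1 = b.val → ∃ x ∈ μ a, ∃ y ∈ μ b, K.Adj x y) :
    Con K {z | ∃ a, z ∈ μ a} := by
  have sub : ∀ a, {z | ∃ a, z ∈ μ a}ᶜ ⊆ (μ a)ᶜ := fun a z hz b => hz ⟨a, b⟩
  have key : ∀ (k : ℕ) (hk : k < r), ∀ u ∈ μ ⟨k, hk⟩, ∀ v ∈ μ ⟨0, by omega⟩,
      ReachOff K {z | ∃ a, z ∈ μ a}ᶜ u v := by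
    intro k
    induction k with
    | zero => exact fun hk u hu v hv => reach_mono (sub _) (h1 _ u hu v hv)
    | succ k ih =>
      intro hk u hu v hv
      obtain ⟨x, hx, y, hy, hxy⟩ := h2 ⟨k, by omega⟩ ⟨k + 1, hk⟩ rfl
      exact ((reach_mono (sub _) (h1 _ u hu y hy)).trans
        (ReachOff.adj (not_not.2 ⟨_, hy⟩) (not_not.2 ⟨_, hx⟩) hxy.symm)).trans (ih _ x hx v hv)
  rintro u ⟨a, ha⟩ v ⟨b, hb⟩
  rcases Nat.eq_zero_or_pos b.val with e | e
  · have : b = ⟨0, by have := b.2; omega⟩ := Fin.ext e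
    exact key a.1 a.2 u ha v (this ▸ hb)
  · obtain ⟨x, hx, -⟩ := h2 ⟨0, by have := b.2; omega⟩ ⟨1, by have := b.2; omega⟩ rfl
    exact (key a.1 a.2 u ha x hx).trans (key b.1 b.2 v hb x hx).symm

theorem Con.lift {G K : SimpleGraph V} {U S : Set V} (h : Con G U) (hS : U ⊆ S)
    (hK : ∀ a ∈ U, ∀ b ∈ U, G.Adj a b → K.Adj a b) : Con (K.induce S) {z | z.1 ∈ U} := by
  have key : ∀ (u v : V) (q : G.Walk u v), (∀ z ∈ q.support, z ∉ Uᶜ) → ∀ (hu : u ∈ S) (hv : v ∈ S),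
      ReachOff (K.induce S) {z : S | z.1 ∈ U}ᶜ ⟨u, hu⟩ ⟨v, hv⟩ := by
    intro u v q
    induction q with
    | @nil u => exact fun hq _ _ => ReachOff.refl (hq u (by simp))
    | @cons u c v huc q ih =>
      intro hq hu hv
      have a1 : u ∈ U := not_not.1 (hq u (by simp))
      have a2 : c ∈ U := not_not.1 (hq c (by simp))
      refine (ReachOff.adj (u := (⟨u, hu⟩ : S)) (v := ⟨c, hS a2⟩) (not_not.2 a1) (not_not.2 a2)
        (hK u a1 c a2 huc)).trans (ih (fun z hz => hq z (by simp [hz])) _ hv)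
  intro a ha b hb
  obtain ⟨q, hq⟩ := h a.1 ha b.1 hb
  exact key _ _ q hq a.2 b.2

theorem Con.closed {G : SimpleGraph V} {U S : Set V} (h : Con G U)
    (hS : ∀ a ∈ U, ∀ b ∈ U, G.Adj a b → a ∈ S → b ∈ S) {z : V} (hz : z ∈ U) (hz' : z ∈ S) :
    U ⊆ S := by
  have key : ∀ (u v : V) (q : G.Walk u v), (∀ z ∈ q.support, z ∉ Uᶜ) → u ∈ S → v ∈ S := by
    intro u v q
    induction q with
    | nil => exact fun _ a => a
    | @cons u c v huc q ih =>
      intro hq hu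
      exact ih (fun z hz => hq z (by simp [hz]))
        (hS u (not_not.1 (hq u (by simp))) c (not_not.1 (hq c (by simp))) huc hu)
  intro v hv
  obtain ⟨q, hq⟩ := h z hz v hv
  exact key _ _ q hq hz'

theorem good_card [Finite V] {r a : ℕ} {A : Set V} (hA : A.ncard ≤ a) (U : Fin r → Set V)
    (hd : ∀ i i' z, z ∈ U i → z ∈ U i' → i = i') :
    r ≤ Nat.card {i // ∀ z ∈ U i, z ∉ A} + a := by
  classical
  have h1 := hit_card (fun i : {i // ¬ ∀ z ∈ U i, z ∉ A} => U i.1)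
    (fun i i' z b c => Subtype.ext (hd _ _ z b c)) (Set.toFinite A).toFinset fun i => by
      have := i.2
      push Not at this
      obtain ⟨z, b, c⟩ := this
      exact ⟨z, (Set.Finite.mem_toFinset _).2 c, b⟩
  rw [← Set.ncard_eq_toFinset_card] at h1
  have h2 := Fintype.card_subtype_compl fun i => ∀ z ∈ U i, z ∉ A
  have h3 := Fintype.card_subtype_le fun i => ∀ z ∈ U i, z ∉ A
  rw [Nat.card_eq_fintype_card] at h1 ⊢
  rw [Fintype.card_fin] at h2 h3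
  omega

/-- **The vortices of an almost embedded graph carry no large rooted grid minor.** -/
theorem vortex_thin (a g p w : ℕ) : ∃ r : ℕ, ∀ (V : Type) [Finite V] (G : SimpleGraph V)
    (A X : Set V), AlmostAt a g p w G A X → ¬ RootedMinor (grid r) G X := by
  classical
  obtain ⟨k, hk⟩ := core_tw p (4 * (2 * (2 * g + 1) + 2)) w
  refine ⟨k + 2 + a, ?_⟩
  rintro V _ G A X ⟨G₀, n, x, B, hA, hv, ⟨U, _, H, f, hH, hHs, hf, hfa⟩, hX⟩ ⟨μ, m1, m2, m3, m4⟩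
  have dμ : ∀ s t z, z ∈ μ s → z ∈ μ t → s = t := fun s t z b c => by
    by_contra e
    exact Set.disjoint_left.1 (m2 s t e) b c
  let R : Fin (k + 2 + a) → Set V := fun i => {z | ∃ j, z ∈ μ (i, j)}
  let C : Fin (k + 2 + a) → Set V := fun j => {z | ∃ i, z ∈ μ (i, j)}
  have cR : ∀ i, Con G (R i) := fun i => con_path (fun j => μ (i, j)) (fun j => con_of_conn (m1 _))
    fun s t e => m3 _ _ (boxProd_adj.2 (Or.inr ⟨pathGraph_adj.2 (Or.inl e), rfl⟩))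
  have cC : ∀ j, Con G (C j) := fun j => con_path (fun i => μ (i, j)) (fun i => con_of_conn (m1 _))
    fun s t e => m3 _ _ (boxProd_adj.2 (Or.inl ⟨pathGraph_adj.2 (Or.inl e), rfl⟩))
  have nR := good_card hA R fun i i' z ⟨_, b⟩ ⟨_, c⟩ => congrArg Prod.fst (dμ _ _ z b c)
  have nC := good_card hA C fun i i' z ⟨_, b⟩ ⟨_, c⟩ => congrArg Prod.snd (dμ _ _ z b c)
  obtain ⟨i0⟩ : Nonempty {i // ∀ z ∈ R i, z ∉ A} := (Nat.card_pos_iff.1 (by omega)).1
  obtain ⟨j0⟩ : Nonempty {i // ∀ z ∈ C i, z ∉ A} := (Nat.card_pos_iff.1 (by omega)).1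
  obtain ⟨u, hu, -⟩ := m4 (i0.1, j0.1)
  let G₁ := rims G₀ x
  let G₂ := full G₁ B
  let S : Set V := compSet G₂ ∅ u
  have hu0 : u ∉ (∅ : Set V) := fun h => h
  have hcl : ∀ v ∈ S, ∀ z, G₂.Adj v z → z ∈ S := fun v hv z h =>
    ReachOff.trans hv (ReachOff.adj (fun h => h) (fun h => h) h)
  have h12 : ∀ v z, G₁.Adj v z → G₂.Adj v z := fun v z h =>
    (fromRel_adj _ _ _).2 ⟨h.ne, Or.inl (Or.inl h)⟩
  have hB2 : ∀ v z i j, v ≠ z → v ∈ B i j → z ∈ B i j → G₂.Adj v z := fun v z i j hne h1 h2 =>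
    (fromRel_adj _ _ _).2 ⟨hne, Or.inl (Or.inr ⟨i, j, h1, h2⟩)⟩
  have hG2 : ∀ v z, G.Adj v z → v ∉ A → z ∉ A → G₂.Adj v z := by
    intro v z h h1 h2
    rcases hv.edge v z h h1 h2 with h0 | ⟨i, j, h3, h4⟩
    · exact h12 _ _ ((fromRel_adj _ _ _).2 ⟨h0.ne, Or.inl (Or.inl h0)⟩)
    · exact hB2 _ _ i j h.ne h3 h4
  have hBS : ∀ v ∈ S, ∀ z i j, v ∈ B i j → z ∈ B i j → z ∈ S := fun v hv z i j h1 h2 => by
    by_cases e : v = z
    · exact e ▸ hv
    · exact hcl v hv z (hB2 _ _ i j e h1 h2)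
  have hcore := hv.core.restrict S (fun v hv z h => hcl v hv z (h12 _ _ h)) hBS
  have hall : ∀ i j, x i j ∈ S → ∀ j', x i j' ∈ S := by
    intro i
    have key : ∀ (k : ℕ) (hk : k < n i), x i ⟨k, hk⟩ ∈ S ↔ x i ⟨0, by omega⟩ ∈ S := by
      intro k
      induction k with
      | zero => exact fun _ => Iff.rfl
      | succ k ih =>
        intro hk
        have hadj := h12 _ _ (hv.core.rim i ⟨k, by omega⟩ ⟨k + 1, hk⟩ rfl)
        rw [← ih (by omega)]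
        exact ⟨fun a => hcl _ a _ hadj.symm, fun a => hcl _ a _ hadj⟩
    intro j hj j'
    exact (key j'.1 j'.2).2 ((key j.1 j.2).1 hj)
  have hfi : Function.Injective fun z : S => f (.inl z.1) := fun a b e =>
    Subtype.ext (Sum.inl_injective (hf e))
  have hfa' : ∀ a b : S, (G₁.induce S).Adj a b → H.Adj (f (.inl a.1)) (f (.inl b.1)) :=
    fun a b h => hfa _ _ (rims_fans h)
  have cls : ∀ T : Set V, Con G T → (∀ z ∈ T, z ∉ A) → ∀ z ∈ T, z ∈ S → T ⊆ S :=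
    fun T h1 h2 z h3 h4 => h1.closed
      (fun s hs t ht e b => hcl s b t (hG2 s t e (h2 s hs) (h2 t ht))) h3 h4
  have pt : ∀ s, ∃ z, z ∈ μ s := fun s => (m4 s).imp fun _ b => b.1
  have sR0 : R i0.1 ⊆ S := cls _ (cR _) i0.2 u ⟨_, hu⟩ (ReachOff.refl hu0)
  have sC : ∀ j : {i // ∀ z ∈ C i, z ∉ A}, C j.1 ⊆ S := fun j => by
    obtain ⟨z, hz⟩ := pt (i0.1, j.1)
    exact cls _ (cC _) j.2 z ⟨_, hz⟩ (sR0 ⟨_, hz⟩)
  have sR : ∀ i : {i // ∀ z ∈ R i, z ∉ A}, R i.1 ⊆ S := fun i => by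
    obtain ⟨z, hz⟩ := pt (i.1, j0.1)
    exact cls _ (cR _) i.2 z ⟨_, hz⟩ (sC j0 ⟨_, hz⟩)
  have lift : ∀ T : Set V, Con G T → T ⊆ S → (∀ z ∈ T, z ∉ A) →
      Con (G₂.induce S) {z | z.1 ∈ T} := fun T h1 h2 h3 =>
    h1.lift h2 fun s hs t ht e => hG2 s t e (h3 s hs) (h3 t ht)
  refine cells_tw (κ := {s // μ s ⊆ S ∧ ∀ z ∈ μ s, z ∉ A}) (I := {i // ∀ z ∈ R i, z ∉ A})
    (I' := {i // ∀ z ∈ C i, z ∉ A}) (k := k) (comp_connected hu0)
    (fun π hπ => hk _ _ _ _ _ _ _ π ?_ (comp_connected hu0) hcore (fun i hF => ?_) hπ)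
    (fun s => {z | z.1 ∈ μ s.1}) (fun s => lift _ (con_of_conn (m1 _)) s.2.1 s.2.2) (fun s => ?_)
    (fun s t z b c => Subtype.ext (dμ _ _ _ b c)) (fun i => {s | s.1.1 = i.1})
    (fun j => {s | s.1.2 = j.1}) (fun i => ?_) (fun j => ?_)
    (fun i i' s b c => Subtype.ext (b.symm.trans c)) (fun i i' s b c => Subtype.ext (b.symm.trans c))
    (fun i j => ⟨⟨(i.1, j.1), fun z hz => sR i ⟨_, hz⟩, fun z hz => i.2 z ⟨_, hz⟩⟩, rfl, rfl⟩)
    (by omega) (by omega)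
  · exact (Finite.card_subtype_le _).trans (by simp)
  · refine noFan hH hHs (f (.inr i.1)) (hF.map _ hfi hfa' ?_ fun z _ e => ?_)
    · rintro _ ⟨j, rfl⟩
      refine hfa _ _ ((fromRel_adj _ _ _).2 ⟨by simp, Or.inl (Or.inr (Or.inl ⟨i.1, j, rfl, rfl⟩))⟩)
    · exact Sum.inl_ne_inr (hf e)
  · obtain ⟨z, b, c⟩ := m4 s.1
    obtain ⟨i, j, d⟩ := hX z c
    exact ⟨⟨z, s.2.1 b⟩, b, ⟨i, hall i j (hBS z (s.2.1 b) _ i j d (hv.root i j))⟩, j,
      Finset.mem_subtype.2 d⟩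
  · have := lift _ (cR i.1) (sR i) i.2
    convert this using 1
    ext z
    constructor
    · rintro ⟨⟨⟨s, t⟩, b⟩, c, d⟩
      have c' : s = i.1 := c
      exact ⟨t, c' ▸ d⟩
    · rintro ⟨j, b⟩
      exact ⟨⟨(i.1, j), fun z hz => sR i ⟨_, hz⟩, fun z hz => i.2 z ⟨_, hz⟩⟩, rfl, b⟩
  · have := lift _ (cC j.1) (sC j) j.2
    convert this using 1
    ext z
    constructor
    · rintro ⟨⟨⟨s, t⟩, b⟩, c, d⟩
      have c' : t = j.1 := c
      exact ⟨s, c' ▸ d⟩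
    · rintro ⟨i, b⟩
      exact ⟨⟨(i, j.1), fun z hz => sC j ⟨_, hz⟩, fun z hz => j.2 z ⟨_, hz⟩⟩, rfl, b⟩

end Vale.Agent.Q235
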