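import Vale.Agent.Q235.Peel
import Vale.Agent.Q235.Vort
import Vale.Agent.Q235.Mix
import Vale.Agent.P235U99.Main
import Vale.Agent.N235Y.Tgt

/-! P235: sums of almost embeddable graphs along cliques in the vortices, and rooted minors. -/

namespace Vale.Agent.Q235

open SimpleGraph Vale.Agent.P235 Vale.Agent.P235.H134 Vale.Agent.P235.K5 Vale.Agent.P235.ST.H742
open Vale.Agent.P235U Vale.Agent.P235L

theorem drawn : ∃ A : ℝ, ∀ (g : ℕ) (V : Type) [Finite V] (G : SimpleGraph V), G.Connected →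
    Drawn g G → Bd G (A * Real.log (g + 2)) := by
  obtain ⟨A, -, hA⟩ := P235L.surf
  refine ⟨A, ?_⟩
  rintro g V _ G hG ⟨U, _, K, f, h1, h2, h3, h4⟩
  exact P235L.bd_of hG ((hA g U K h1 h2).emb f h3 h4 h1 hG)

theorem grid_mono {V : Type} {G : SimpleGraph V} {X : Set V} {r s : ℕ} (hrs : r ≤ s)
    (h : RootedMinor (grid s) G X) : RootedMinor (grid r) G X := by
  obtain ⟨μ, h1, h2, h3, h4⟩ := h
  have inj := Fin.castLE_injective hrs
  refine ⟨fun a => μ (Fin.castLE hrs a.1, Fin.castLE hrs a.2), fun a => h1 _,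
    fun a b e => h2 _ _ fun c => e (Prod.ext (inj (congrArg Prod.fst c)) (inj (congrArg Prod.snd c))),
    fun a b e => h3 _ _ ?_, fun a => h4 _⟩
  rcases boxProd_adj.1 e with ⟨c, d⟩ | ⟨c, d⟩
  · have c' := pathGraph_adj.1 c
    exact boxProd_adj.2 (Or.inl ⟨pathGraph_adj.2 c', congrArg (Fin.castLE hrs) d⟩)
  · have c' := pathGraph_adj.1 c
    exact boxProd_adj.2 (Or.inr ⟨pathGraph_adj.2 c', congrArg (Fin.castLE hrs) d⟩)

theorem tame (a g p w r : ℕ) (D : ℝ) : ∃ (D' : ℝ) (r' : ℕ), ∀ (V : Type) [Finite V]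
    (G : SimpleGraph V) (A X : Set V), G.Preconnected → Tame a g p w r D V G A X →
    DistortionLE G D' ∧ A.ncard ≤ a ∧ ¬ RootedMinor (grid r') G X := by
  obtain ⟨D₀, hD⟩ := almost a g p w
  obtain ⟨r₀, hr⟩ := vortex_thin a g p w
  refine ⟨max D D₀, max r r₀, ?_⟩
  rintro V _ G A X hc (h | ⟨h1, h2, h3⟩)
  · refine ⟨?_, ?_, fun b => hr V G A X h (grid_mono (le_max_right _ _) b)⟩
    · rcases isEmpty_or_nonempty V with e | e
      · intro ℓ _
        exact ⟨Unit, inferInstance, 0, fun x => isEmptyElim x, fun x => isEmptyElim x⟩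
      · obtain ⟨G₀, n', x, B', a1, a2, a3, -⟩ := h
        exact (hD _ _ ⟨hc⟩ ⟨_, G₀, n', x, B', a1, a2, a3⟩).mono (le_max_right _ _)
    · obtain ⟨G₀, n', x, B', a1, -⟩ := h
      exact a1
  · exact ⟨h1.mono (le_max_left _ _), h2, fun b => h3 (grid_mono (le_max_left _ _) b)⟩

theorem hung (a g p w r : ℕ) (D : ℝ) (j : ℕ) : ∃ C : ℝ, ∀ (V W : Type) [Finite V] [Finite W]
    (H : SimpleGraph V) (G : SimpleGraph W), H.Connected → G.Connected →
    HungSum (Tame a g p w r D) j H → IsMinor G H → Bd G C := by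
  obtain ⟨D', r', ht⟩ := tame a g p w r D
  obtain ⟨C, hC⟩ := thin_sum D' r' a j
  refine ⟨2 * max C 1, ?_⟩
  rintro V W _ _ H G hH hG ⟨m, n, B, A, X, lev, h, hP, hang⟩ hm
  exact P235L.bd_of hG (H406.mono V W H G _ (le_max_right _ _) hH hG hm
    ((hC V H hH ⟨m, n, B, A, X, lev, h, fun t a => ⟨(hP t a).1, ht _ _ _ _
      (K5.GX.H43.CX.bag_conn h hH.preconnected t a) (hP t a).2⟩, hang⟩).mono (le_max_left _ _)))

theorem mix (a g p w r : ℕ) (D : ℝ) : ∃ C : ℝ, ∀ (V W : Type) [Finite V] [Finite W]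
    (H : SimpleGraph V) (G : SimpleGraph W), H.Connected → G.Connected →
    MixSum (Tame a g p w r D) g H → IsMinor G H → Bd G C := by
  obtain ⟨D', r', ht⟩ := tame a g p w r D
  obtain ⟨C, hC⟩ := mix_sum g D' r' a
  refine ⟨2 * max C 1, ?_⟩
  rintro V W _ _ H G hH hG ⟨m, n, B, A, X, S, h, hP, hang⟩ hm
  exact P235L.bd_of hG (H406.mono V W H G _ (le_max_right _ _) hH hG hm
    ((hC V H hH ⟨m, n, B, A, X, S, h, fun t a => ⟨(hP t a).1, fun b => ht _ _ _ _
      (K5.GX.H43.CX.bag_conn h hH.preconnected t a) ((hP t a).2 b)⟩, hang⟩).mono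
      (le_max_left _ _)))

theorem rooted (D : ℝ) : ∃ C : ℝ, ∀ (V : Type) [Finite V] (G : SimpleGraph V) (X : Set V),
    G.Connected → (∀ u ∉ X, DistortionLE (G.induce (compSet G X u)) D) →
    (∀ (W : Type) [Finite W] (M : SimpleGraph W), M.Connected → RootedMinor M G X →
      DistortionLE M D) → Bd G C := by
  obtain ⟨r, -, hr⟩ := H23.badKStmt H406.mono D
  obtain ⟨C, hC1, hC⟩ := conRetr r
  have d1 := le_max_right D 1
  refine ⟨max D (3400000 * max D 1 * (max D 1 * C)), fun V _ G X hc h1 h2 => P235L.bd_of hc ?_⟩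
  rcases X.eq_empty_or_nonempty with rfl | hX
  · exact (distortion_of_empty hc h1).mono (le_max_left _ _)
  refine (thmT hc hX d1 d1 hC1 (fun ℓ hℓ => hC V G ℓ hc hℓ _ hX fun u hu hm =>
    hr _ _ (comp_connected hu) hm (h1 u hu)) (fun π hπ => ?_)
    fun u hu => (h1 u hu).mono (le_max_left _ _)).mono (le_max_right _ _)
  refine (h2 _ _ (rgraph_connected hπ hc hX) ⟨fun x => {v | π v ∈ ({x.1} : Set V)},
    fun x => conn_of_walks ⟨x.1, hπ.id _ x.2⟩ fun u hu v hv => ?_, fun x y hxy => ?_, ?_,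
    fun x => ⟨x.1, hπ.id _ x.2, x.2⟩⟩).mono (le_max_left _ _)
  · have a1 := fibre_reach hπ (S := {x.1}) hu
    have a2 := fibre_reach hπ (S := {x.1}) hv
    rw [show π u = x.1 from hu] at a1
    rw [show π v = x.1 from hv] at a2
    exact a1.trans a2.symm
  · exact Set.disjoint_left.2 fun v a b => hxy (Subtype.ext ((Eq.symm a).trans b))
  · rintro x y ⟨-, u, v, huv, a, b⟩
    exact ⟨u, a, v, b, huv⟩

end Vale.Agent.Q235
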