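import Vale.Agent.Q235.Defs
import Vale.Agent.P235L.Main
import Vale.Agent.P235A.Tw
import Vale.Agent.P235.Comp.Final
import Vale.Agent.P235.H263.Elim
import Vale.Agent.P235.H749.Helly

/-! P235: rooted grid minors and contractions. -/

namespace Vale.Agent.Q235

open SimpleGraph Vale.Agent.P235 Vale.Agent.P235.H134 Vale.Agent.P235.ST.H742
open Vale.Agent.P235L Vale.Agent.P235A

variable {V : Type}

/-- a contraction along a given relation -/
theorem contr_of_rel (K : SimpleGraph V) (X : Set V) (R : V → V → Prop)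
    (hR : ∀ v u, R v u → K.Adj v u) (h : ∀ v, ∃ x ∈ X, Relation.ReflTransGen R v x) :
    ∃ π, RContr K X π ∧ ∀ v, Relation.ReflTransGen R v (π v) := by
  classical
  let Ch : ℕ → V → Prop := fun n => Nat.rec (motive := fun _ => V → Prop) (fun v => v ∈ X)
    (fun _ ih v => v ∈ X ∨ ∃ u, R v u ∧ ih u) n
  have h1 : ∀ v, ∃ n, Ch n v := by
    intro v
    obtain ⟨x, hx, hv⟩ := h v
    induction hv using Relation.ReflTransGen.head_induction_on with
    | refl => exact ⟨0, hx⟩
    | head a _ ih =>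
      obtain ⟨n, hn⟩ := ih
      exact ⟨n + 1, Or.inr ⟨_, a, hn⟩⟩
  let N : V → ℕ := fun v => Nat.find (h1 v)
  have h2 : ∀ v, ∃ u, v ∉ X → R v u ∧ N u < N v := by
    intro v
    by_cases hv : v ∈ X
    · exact ⟨v, fun a => absurd hv a⟩
    · have a1 : Ch (N v) v := Nat.find_spec (h1 v)
      rcases e : N v with _ | k
      · rw [e] at a1
        exact absurd a1 hv
      · rw [e] at a1
        obtain ⟨u, a2, a3⟩ := Or.resolve_left a1 hv
        exact ⟨u, fun _ => ⟨a2, Nat.lt_succ_of_le (Nat.find_min' (h1 u) a3)⟩⟩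
  choose nb hnb using h2
  have h3 : ∀ k : ℕ, ∃ π : V → V, ∀ v, N v < k → π v ∈ X ∧ (v ∈ X → π v = v) ∧
      (v ∉ X → π v = π (nb v)) := by
    intro k
    induction k with
    | zero => exact ⟨id, fun v hv => by omega⟩
    | succ k ih =>
      obtain ⟨π, hπ⟩ := ih
      refine ⟨fun v => if N v < k then π v else if v ∈ X then v else π (nb v), fun v hv => ?_⟩
      by_cases a : N v < k
      · refine ⟨by simpa [a] using (hπ v a).1, fun b => by simpa [a] using (hπ v a).2.1 b,
          fun b => ?_⟩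
        have c : N (nb v) < k := (hnb v b).2.trans a
        simpa [a, c] using (hπ v a).2.2 b
      · by_cases b : v ∈ X
        · exact ⟨by simp [a, b], fun _ => by simp [a, b], fun c => absurd b c⟩
        · have c : N (nb v) < k := by
            have := (hnb v b).2
            omega
          exact ⟨by simpa [a, b] using (hπ _ c).1, fun d => absurd d b, fun _ => by simp [a, b, c]⟩
  let π : V → V := fun v => (h3 (N v + 1)).choose v
  have key : ∀ k (σ τ : V → V), (∀ v, N v < k → σ v ∈ X ∧ (v ∈ X → σ v = v) ∧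
      (v ∉ X → σ v = σ (nb v))) → ∀ l, (∀ v, N v < l → τ v ∈ X ∧ (v ∈ X → τ v = v) ∧
      (v ∉ X → τ v = τ (nb v))) → ∀ j v, N v < j → N v < k → N v < l → σ v = τ v := by
    intro k σ τ hσ l hτ j
    induction j with
    | zero => intro v hv; omega
    | succ j ih =>
      intro v a b c
      by_cases d : v ∈ X
      · rw [(hσ v b).2.1 d, (hτ v c).2.1 d]
      · have := (hnb v d).2
        rw [(hσ v b).2.2 d, (hτ v c).2.2 d]
        exact ih _ (by omega) (by omega) (by omega)
  have p1 : ∀ v, π v ∈ X := fun v => ((h3 (N v + 1)).choose_spec v (Nat.lt_succ_self _)).1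
  have p2 : ∀ v ∈ X, π v = v := fun v => ((h3 (N v + 1)).choose_spec v (Nat.lt_succ_self _)).2.1
  have p3 : ∀ v ∉ X, π v = π (nb v) := by
    intro v hv
    have := (hnb v hv).2
    exact (((h3 (N v + 1)).choose_spec v (Nat.lt_succ_self _)).2.2 hv).trans
      (key _ _ _ (h3 (N v + 1)).choose_spec _ (h3 (N (nb v) + 1)).choose_spec (N v) _ this
        (by omega) (Nat.lt_succ_self _))
  have p4 : ∀ j v, N v < j → (∃ q : K.Walk v (π v), ∀ z ∈ q.support, π z = π v) ∧
      Relation.ReflTransGen R v (π v) := by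
    intro j
    induction j with
    | zero => intro v hv; omega
    | succ j ih =>
      intro v hv
      by_cases d : v ∈ X
      · refine ⟨⟨Walk.nil.copy rfl (p2 v d).symm, fun z hz => ?_⟩, ?_⟩
        · rw [Walk.support_copy, Walk.support_nil, List.mem_singleton] at hz
          rw [hz]
        · rw [p2 v d]
      · obtain ⟨a, b⟩ := hnb v d
        obtain ⟨⟨q, hq⟩, c⟩ := ih (nb v) (by omega)
        refine ⟨⟨(Walk.cons (hR _ _ a) q).copy rfl (p3 v d).symm, fun z hz => ?_⟩, ?_⟩
        · rw [Walk.support_copy, Walk.support_cons, List.mem_cons] at hz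
          rcases hz with rfl | hz
          · rfl
          · rw [hq z hz, p3 v d]
        · rw [p3 v d]
          exact c.head a
  exact ⟨π, ⟨p1, p2, fun v => (p4 _ v (Nat.lt_succ_self _)).1⟩,
    fun v => (p4 _ v (Nat.lt_succ_self _)).2⟩

/-- treewidth is decided by the components -/
theorem tw_of_comps [Finite V] {K : SimpleGraph V} {k : ℕ}
    (h : ∀ u, TreewidthLE (K.induce (compSet K ∅ u)) k) : TreewidthLE K k := by
  classical
  have hcl : ∀ u v z, v ∈ compSet K ∅ u → K.Adj v z → z ∈ compSet K ∅ u := fun u v z hv a =>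
    ReachOff.trans hv (ReachOff.adj (fun h => h) (fun h => h) a)
  have key : ∀ S : Finset V, TreewidthLE (K.induce {v | ∃ u ∈ S, v ∈ compSet K ∅ u}) k := by
    intro S
    induction S using Finset.induction_on with
    | empty =>
      refine tw_small ?_
      have : {v | ∃ u ∈ (∅ : Finset V), v ∈ compSet K ∅ u} = ∅ := by simp
      rw [this, Set.ncard_empty]
      omega
    | insert a S _ ih =>
      by_cases e : ∃ u ∈ S, a ∈ compSet K ∅ u
      · have : {v | ∃ u ∈ insert a S, v ∈ compSet K ∅ u} = {v | ∃ u ∈ S, v ∈ compSet K ∅ u} := by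
          ext v
          constructor
          · rintro ⟨u, hu, hv⟩
            rcases Finset.mem_insert.1 hu with rfl | hu
            · obtain ⟨u', a1, a2⟩ := e
              exact ⟨u', a1, ReachOff.trans a2 hv⟩
            · exact ⟨u, hu, hv⟩
          · rintro ⟨u, hu, hv⟩
            exact ⟨u, Finset.mem_insert_of_mem hu, hv⟩
        rw [this]
        exact ih
      · have : {v | ∃ u ∈ insert a S, v ∈ compSet K ∅ u} =
            {v | ∃ u ∈ S, v ∈ compSet K ∅ u} ∪ compSet K ∅ a := by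
          ext v
          constructor
          · rintro ⟨u, hu, hv⟩
            rcases Finset.mem_insert.1 hu with rfl | hu
            · exact Or.inr hv
            · exact Or.inl ⟨u, hu, hv⟩
          · rintro (⟨u, hu, hv⟩ | hv)
            · exact ⟨u, Finset.mem_insert_of_mem hu, hv⟩
            · exact ⟨a, Finset.mem_insert_self _ _, hv⟩
        rw [this]
        refine tw_union ih (h a) ?_ ?_
        · rintro v ⟨⟨u, hu, hv⟩, hv'⟩
          exact absurd ⟨u, hu, ReachOff.trans hv (ReachOff.symm hv')⟩ e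
        · rintro v - hv z hz - hvz
          exact hv (hcl a z v hz hvz.symm)
  have := Fintype.ofFinite V
  exact TreewidthLE.comap
    (fun v : V => (⟨v, v, Finset.mem_univ v, ReachOff.refl fun h => h⟩ :
      {v | ∃ u ∈ (Finset.univ : Finset V), v ∈ compSet K ∅ u}))
    (fun a b e => congrArg Subtype.val e) (fun a b h => h) (key Finset.univ)

/-- a set is connected if its points are joined by walks inside -/
theorem conn_of_walks {K : SimpleGraph V} {S : Set V} (hne : S.Nonempty)
    (h : ∀ u ∈ S, ∀ v ∈ S, ReachOff K Sᶜ u v) : (K.induce S).Connected := by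
  obtain ⟨u, hu⟩ := hne
  have e : S = compSet K Sᶜ u := Set.ext fun v =>
    ⟨fun hv => h u hu v hv, fun hv => not_not.1 (ReachOff.right hv)⟩
  have := comp_connected (G := K) (X := Sᶜ) (u := u) (not_not.2 hu)
  rwa [← e] at this

/-- the contracted graph off `Z` -/
def rOff (K : SimpleGraph V) (Z : Set V) (π : V → V) : SimpleGraph V where
  Adj x y := x ≠ y ∧ x ∉ Z ∧ y ∉ Z ∧ ∃ u v, K.Adj u v ∧ π u = x ∧ π v = y
  symm := ⟨fun _ _ ⟨a, b, c, u, v, d, e, f⟩ => ⟨a.symm, c, b, v, u, d.symm, f, e⟩⟩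
  loopless := ⟨fun _ h => h.1 rfl⟩

theorem fibre_reach {K : SimpleGraph V} {Y : Set V} {π : V → V} (hπ : RContr K Y π) {S : Set V}
    {v : V} (hv : π v ∈ S) : ReachOff K {z | π z ∈ S}ᶜ v (π v) := by
  obtain ⟨q, hq⟩ := hπ.conn v
  exact ⟨q, fun z hz => not_not.2 (show π z ∈ S by rw [hq z hz]; exact hv)⟩

/-- without a rooted grid the contractions have bounded treewidth -/
theorem thin_tw (r : ℕ) : ∃ k : ℕ, ∀ (V : Type) [Finite V] (K : SimpleGraph V) (X Y Z : Set V)
    (π : V → V), RContr K Y π → Y ⊆ X ∪ Z → ¬ RootedMinor (grid r) K X →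
    TreewidthLE (rOff K Z π) k := by
  obtain ⟨k, hk⟩ := excludedGrid r
  refine ⟨k, fun V _ K X Y Z π hπ hY hno => tw_of_comps fun u => ?_⟩
  by_contra hcon
  obtain ⟨μ, h1, h2, h3⟩ := hk _ _ (comp_connected (X := ∅) fun h => h) hcon
  have hin : ∀ v ∈ compSet (rOff K Z π) ∅ u, v ∈ Y ∧ v ∉ Z := by
    intro v hv
    by_contra hv'
    refine hcon (tw_small ?_)
    have : compSet (rOff K Z π) ∅ u ⊆ {v} := by
      intro z hz
      obtain ⟨q, -⟩ := ReachOff.trans (ReachOff.symm hv) hz
      cases q with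
      | nil => rfl
      | cons a _ =>
        obtain ⟨-, b, -, y, -, -, c, -⟩ := a
        exact absurd ⟨c ▸ hπ.mem y, b⟩ hv'
    refine (Set.ncard_le_ncard this).trans ?_
    rw [Set.ncard_singleton]
    omega
  have hne : ∀ a, ∃ z, z ∈ μ a := fun a => by
    obtain ⟨⟨z, hz⟩⟩ := (h1 a).nonempty
    exact ⟨z, hz⟩
  refine hno ⟨fun a => {z | π z ∈ Subtype.val '' μ a}, fun a => conn_of_walks ?_ ?_,
    fun a b hab => ?_, fun a b hab => ?_, fun a => ?_⟩
  · obtain ⟨z, hz⟩ := hne a
    exact ⟨z.1, z, hz, (hπ.id _ (hin _ z.2).1).symm⟩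
  · have key : ∀ (x y : μ a), ((rOff K Z π).induce _ |>.induce (μ a)).Walk x y →
        ReachOff K {z | π z ∈ Subtype.val '' μ a}ᶜ x.1.1 y.1.1 := by
      intro x y q
      induction q with
      | @nil x => exact ReachOff.refl (not_not.2 ⟨x.1, x.2, (hπ.id _ (hin _ x.1.2).1).symm⟩)
      | @cons x c y hxc q ih =>
        obtain ⟨-, -, -, s, t, hst, e1, e2⟩ := hxc
        have a1 : π s ∈ Subtype.val '' μ a := ⟨x.1, x.2, e1.symm⟩
        have a2 : π t ∈ Subtype.val '' μ a := ⟨c.1, c.2, e2.symm⟩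
        have b1 := fibre_reach hπ a1
        have b2 := fibre_reach hπ a2
        rw [e1] at b1
        rw [e2] at b2
        exact ((b1.symm.trans (ReachOff.adj (not_not.2 a1) (not_not.2 a2) hst)).trans b2).trans ih
    rintro s ⟨x, hx, e1⟩ t ⟨y, hy, e2⟩
    obtain ⟨q⟩ := (h1 a).preconnected ⟨x, hx⟩ ⟨y, hy⟩
    have b1 := fibre_reach hπ (S := Subtype.val '' μ a) ⟨x, hx, e1⟩
    have b2 := fibre_reach hπ (S := Subtype.val '' μ a) ⟨y, hy, e2⟩
    rw [← e1] at b1
    rw [← e2] at b2
    exact (b1.trans (key _ _ q)).trans b2.symm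
  · refine Set.disjoint_left.2 ?_
    rintro z ⟨x, hx, e1⟩ ⟨y, hy, e2⟩
    have : x = y := Subtype.ext (e1.trans e2.symm)
    exact Set.disjoint_left.1 (h2 a b hab) hx (this ▸ hy)
  · obtain ⟨x, hx, y, hy, -, -, -, s, t, hst, e1, e2⟩ := h3 a b hab
    exact ⟨s, ⟨x, hx, e1.symm⟩, t, ⟨y, hy, e2.symm⟩, hst⟩
  · obtain ⟨z, hz⟩ := hne a
    exact ⟨z.1, ⟨z, hz, (hπ.id _ (hin _ z.2).1).symm⟩,
      (hY (hin _ z.2).1).resolve_right (hin _ z.2).2⟩

end Vale.Agent.Q235
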