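import Vale.Agent.P235.H237.CX.Cx4
import Vale.Agent.P235.CX.H89.Three
import Vale.Agent.P235.H141.CX.NG
import Vale.Agent.P235.K5.GX.H43.CX5
import Vale.Agent.P235.H536.Sharp

/-! P235: the theorem on sums with centres for an arbitrary rooted tree of bags. -/

namespace Vale.Agent.Q235

open SimpleGraph Vale.Agent.P235 Vale.Agent.P235.K5

/-- a rooted tree of bags with centres -/
structure RT {V ι : Type} (ρ : ι) (par : ι → ι) (rk : ι → ℕ) (bag cen : ι → Set V)
    (top : V → ι) : Prop where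
  lt : ∀ i, i ≠ ρ → rk (par i) < rk i
  mem : ∀ v, v ∈ bag (top v)
  up : ∀ v i, v ∈ bag i → i ≠ top v → i ≠ ρ ∧ v ∈ bag (par i)
  sub : ∀ i, cen i ⊆ bag i
  adh : ∀ i, i ≠ ρ → ∀ v ∈ bag i, v ∈ bag (par i) → v ∈ cen i
  one : ∀ i, i ≠ ρ → ∀ u ∈ bag i, ∀ v ∈ bag i, u ∈ bag (par i) → v ∈ bag (par i) →
    u ∉ cen (par i) → v ∉ cen (par i) → u = v

/-- the edges of `H` inside the bags, and the centres joined to their bags -/
def fill {V ι : Type} (H : SimpleGraph V) (bag cen : ι → Set V) : SimpleGraph V where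
  Adj u v := u ≠ v ∧ ∃ i, u ∈ bag i ∧ v ∈ bag i ∧ (H.Adj u v ∨ u ∈ cen i ∨ v ∈ cen i)
  symm := ⟨fun _ _ ⟨h, i, a, b, c⟩ => ⟨h.symm, i, b, a,
    c.elim (fun c => Or.inl c.symm) fun c => Or.inr c.symm⟩⟩
  loopless := ⟨fun _ h => h.1 rfl⟩

variable {V ι : Type} {ρ : ι} {par : ι → ι} {rk : ι → ℕ} {bag cen : ι → Set V} {top : V → ι}

theorem RT.top_le (h : RT ρ par rk bag cen top) (v : V) :
    ∀ (N : ℕ) (i : ι), rk i < N → v ∈ bag i → rk (top v) ≤ rk i := by
  intro N
  induction N with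
  | zero => intro i hi; omega
  | succ N ih =>
    intro i hi hv
    by_cases e : i = top v
    · rw [e]
    · obtain ⟨h1, h2⟩ := h.up v i hv e
      have h3 := h.lt i h1
      have h4 := ih _ (by omega) h2
      omega

theorem RT.chain (h : RT ρ par rk bag cen top) {u v : V} (huv : rk (top v) < rk (top u)) :
    ∀ (N : ℕ) (j : ι), rk j < N → u ∈ bag j → v ∈ bag j → v ∈ bag (top u) := by
  intro N
  induction N with
  | zero => intro j hj; omega
  | succ N ih =>
    intro j hj hu hv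
    by_cases e : j = top u
    · rwa [e] at hv
    · obtain ⟨h1, h2⟩ := h.up u j hu e
      have h3 := h.lt j h1
      have h4 := h.top_le u _ j (Nat.lt_succ_self _) hu
      obtain ⟨-, h5⟩ := h.up v j hv (fun a => by rw [a] at h4; omega)
      exact ih _ (by omega) h2 h5

theorem RT.top_eq (h : RT ρ par rk bag cen top) {u : V} {i : ι} (hu : u ∈ bag i)
    (hc : u ∉ cen i) : i = top u := by
  by_contra e
  obtain ⟨h1, h2⟩ := h.up u i hu e
  exact hc (h.adh i h1 u hu h2)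

theorem RT.only (h : RT ρ par rk bag cen top) {u v : V} {i : ι} (hne : u ≠ v) (hu : u ∈ bag i)
    (hv : v ∈ bag i) (hu' : u ∉ cen i) (hv' : v ∉ cen i) :
    ∀ (N : ℕ) (j : ι), rk j < N → u ∈ bag j → v ∈ bag j → j = i := by
  intro N
  induction N with
  | zero => intro j hj; omega
  | succ N ih =>
    intro j hj h1 h2
    by_contra e
    obtain ⟨a1, a2⟩ := h.up u j h1 (fun a => e (a.trans (h.top_eq hu hu').symm))
    obtain ⟨-, a3⟩ := h.up v j h2 (fun a => e (a.trans (h.top_eq hv hv').symm))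
    have a4 := h.lt j a1
    have a5 := ih _ (by omega) a2 a3
    exact hne (h.one j a1 u h1 v h2 a2 a3 (by rwa [a5]) (by rwa [a5]))

theorem RT.inj [Finite ι] (h : RT ρ par rk bag cen top) :
    ∃ rk' : ι → ℕ, Function.Injective rk' ∧ RT ρ par rk' bag cen top := by
  obtain ⟨m, ⟨e⟩⟩ := Finite.exists_equiv_fin ι
  refine ⟨fun i => (e i).val + m * rk i, fun i j hij => ?_, fun i hi => ?_, h.mem, h.up, h.sub,
    h.adh, h.one⟩
  · have h1 := congrArg (· % m) hij
    simp only [Nat.add_mul_mod_self_left] at h1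
    rw [Nat.mod_eq_of_lt (e i).2, Nat.mod_eq_of_lt (e j).2] at h1
    exact e.injective (Fin.ext h1)
  · have h1 := h.lt i hi
    have h2 := (e (par i)).2
    have h3 : m * (rk (par i) + 1) ≤ m * rk i := Nat.mul_le_mul_left m h1
    rw [Nat.mul_add, Nat.mul_one] at h3
    show (e (par i)).val + m * rk (par i) < (e i).val + m * rk i
    omega

theorem tree_centre (A : ℝ) (N : ℕ) : ∃ K : ℝ, 1 ≤ K ∧ ∀ (V ι : Type) [Finite V] [Finite ι]
    (H : SimpleGraph V) (ρ : ι) (par : ι → ι) (rk : ι → ℕ) (bag cen : ι → Set V) (top : V → ι),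
    RT ρ par rk bag cen top → (∀ i, (cen i).ncard ≤ N) →
    (∀ (i : ι) (W : Type) [Finite W] (G : SimpleGraph W) (φ : W → V), G.Connected →
      Function.Injective φ → (∀ x, φ x ∈ bag i ∧ φ x ∉ cen i) →
      (∀ x y, G.Adj x y → H.Adj (φ x) (φ y)) → DistortionLE G A) →
    (fill H bag cen).Connected → DistortionLE (fill H bag cen) K := by
  obtain ⟨C₀, hC₀, hap⟩ := apex_log'
  obtain ⟨K, hK1, hK⟩ := K5.GX.H43.CX.centre
    (H237.CX.cx4 (Vale.Agent.P235.CX.H89.cx3 H141.CX.ngStmt))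
    (max (C₀ * (max A 0 + Real.log (N + 2))) 1) N (le_max_right _ _)
  refine ⟨K, hK1, fun V ι _ _ H ρ par rk₀ bag cen top h₀ hN hA hc => ?_⟩
  obtain ⟨rk, hinj, h⟩ := h₀.inj
  obtain ⟨n, hn⟩ := (Set.finite_range rk).bddAbove
  have hlt : ∀ i, rk i < n + 1 := fun i => Nat.lt_succ_of_le (hn ⟨i, rfl⟩)
  let B : ℕ → Set V := fun t => {v | ∃ i, rk i = t ∧ v ∈ bag i}
  let M : ℕ → Set V := fun t => {v | ∃ i, rk i = t ∧ v ∈ cen i}
  have hB : ∀ i, B (rk i) = bag i := fun i => Set.ext fun v =>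
    ⟨fun ⟨j, e, a⟩ => hinj e ▸ a, fun a => ⟨i, rfl, a⟩⟩
  have hM : ∀ i, M (rk i) = cen i := fun i => Set.ext fun v =>
    ⟨fun ⟨j, e, a⟩ => hinj e ▸ a, fun a => ⟨i, rfl, a⟩⟩
  have hbef : ∀ v t, v ∈ Bef B t → rk (top v) < t := by
    rintro v t ⟨s, hs, j, rfl, a⟩
    exact lt_of_le_of_lt (h.top_le v _ j (Nat.lt_succ_self _) a) hs
  have hadh : ∀ i, ∀ v ∈ Adh B (rk i), v ∈ bag i ∧ i ≠ ρ ∧ v ∈ bag (par i) := by
    intro i v hv
    have a1 : v ∈ bag i := hB i ▸ hv.1
    have a2 := hbef v _ hv.2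
    exact ⟨a1, h.up v i a1 fun e => by rw [← e] at a2; omega⟩
  have hcen : ∀ i, Adh B (rk i) ⊆ cen i := fun i v hv =>
    h.adh i (hadh i v hv).2.1 v (hadh i v hv).1 (hadh i v hv).2.2
  have hcase : ∀ t, B t = ∅ ∨ ∃ i, rk i = t := fun t => by
    by_cases e : ∃ i, rk i = t
    · exact Or.inr e
    · exact Or.inl (Set.eq_empty_of_forall_notMem fun v ⟨i, a, _⟩ => e ⟨i, a⟩)
  have hemp : ∀ t, B t = ∅ → Adh B t = ∅ := fun t e =>
    Set.eq_empty_of_forall_notMem fun v hv => by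
      have := hv.1
      rw [e] at this
      exact this
  have hg : Glued N (fill H bag cen) (n + 1) B := by
    refine ⟨fun v => ⟨_, hlt _, top v, rfl, h.mem v⟩, fun t _ => ?_, fun t _ u hu v hv huv => ?_,
      fun t _ u v hu hu' hv hv' huv => ?_⟩
    · rcases hcase t with e | ⟨i, rfl⟩
      · rw [hemp t e, Set.ncard_empty]
        omega
      · exact (Set.ncard_le_ncard (hcen i)).trans (hN i)
    · obtain ⟨i, rfl, -⟩ := hu.1
      exact ⟨huv, i, (hadh i u hu).1, (hadh i v hv).1, Or.inr (Or.inl (hcen i hu))⟩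
    · obtain ⟨i, rfl, a⟩ := hu
      have e : i = top u := by
        by_contra e
        obtain ⟨a1, a2⟩ := h.up u i a e
        exact hu' ⟨_, h.lt i a1, _, rfl, a2⟩
      obtain ⟨-, j, b1, b2, -⟩ := huv
      have a3 := hbef v _ hv
      rw [hB, e] at hv'
      exact hv' (h.chain (by rwa [← e]) _ j (Nat.lt_succ_self _) b1 b2)
  refine hK V _ _ (n + 1) B M le_rfl hc hg (fun t _ => ⟨fun v ⟨i, e, a⟩ => ⟨i, e, h.sub i a⟩, ?_⟩)
    (fun t ht => ?_) fun u _ h0 => ?_
  · by_cases e : ∃ i, rk i = t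
    · obtain ⟨i, rfl⟩ := e
      rw [hM]
      exact hN i
    · have : M t = ∅ := Set.eq_empty_of_forall_notMem fun v ⟨i, a, _⟩ => e ⟨i, a⟩
      rw [this, Set.ncard_empty]
      omega
  · rcases (B t).eq_empty_or_nonempty with he | ⟨x, i, rfl, hx⟩
    · have : IsEmpty (B t) := by
        rw [Set.isEmpty_coe_sort]
        exact he
      intro ℓ _
      exact ⟨Unit, inferInstance, 0, fun x => isEmptyElim x, fun x => isEmptyElim x⟩
    · have hcon := K5.GX.H43.CX.bag_conn hg hc.preconnected _ ht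
      rw [hB] at hcon ⊢
      have : Nonempty (bag i) := ⟨⟨x, hx⟩⟩
      refine DistortionLE.mono (hap (max A 0) (le_max_right _ _) N _ _ ⟨hcon⟩
        {z : bag i | z.1 ∈ cen i}
        ((Set.ncard_le_ncard_of_injOn Subtype.val (fun _ a => a)
          Subtype.val_injective.injOn).trans (hN i)) fun u hu => ?_) (le_max_left _ _)
      refine DistortionLE.mono (hA i _ _ (fun z => z.1.1) (comp_connected hu)
        (fun a b e => Subtype.ext (Subtype.ext e))
        (fun z => ⟨z.1.2, ReachOff.right (X := {z : bag i | z.1 ∈ cen i}) z.2⟩) fun a b hab => ?_) (le_max_left _ _)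
      obtain ⟨hne, j, b1, b2, b3⟩ := hab
      have a1 : a.1.1 ∉ cen i := ReachOff.right (X := {z : bag i | z.1 ∈ cen i}) a.2
      have a2 : b.1.1 ∉ cen i := ReachOff.right (X := {z : bag i | z.1 ∈ cen i}) b.2
      have e := h.only hne a.1.2 b.1.2 a1 a2 _ j (Nat.lt_succ_self _) b1 b2
      rw [e] at b3
      exact b3.resolve_right fun c => c.elim a1 a2
  · rcases (Adh B u).eq_empty_or_nonempty with he | ⟨x, hx⟩
    · refine ⟨0, h0, ?_, ?_⟩
      · rw [he]
        exact Set.empty_subset _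
      · rw [he, Set.empty_sdiff]
        exact Set.subsingleton_empty
    · obtain ⟨i, rfl, -⟩ := hx.1
      have a1 := (hadh i x hx).2.1
      refine ⟨rk (par i), h.lt i a1, fun v hv => ?_, fun a ha b hb => ?_⟩
      · rw [hB]
        exact (hadh i v hv).2.2
      · rw [hM] at ha hb
        exact h.one i a1 a (hadh i a ha.1).1 b (hadh i b hb.1).1 (hadh i a ha.1).2.2
          (hadh i b hb.1).2.2 (fun c => ha.2 (Or.inr c)) fun c => hb.2 (Or.inr c)

end Vale.Agent.Q235
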