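import Vale.Agent.Q235.Retr
import Vale.Agent.Q235.Tree
import Vale.Agent.Q235.Thin
import Vale.Agent.P235T.Core

/-! P235: peeling the pieces of a clique sum onto thin sets. -/

namespace Vale.Agent.Q235

open SimpleGraph Vale.Agent.P235 Vale.Agent.P235.H134 Vale.Agent.P235.K5 Vale.Agent.P235.ST.H742

variable {V : Type}

/-- a contraction `π` of the piece `S` onto `Y` and an elimination order of the contracted graph -/
structure Loc (H : SimpleGraph V) (S Y Z : Set V) (k L : ℕ) (π : V → V) (rk : V → ℕ)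
    (E : V → Finset V) : Prop where
  mem : ∀ v ∈ S, π v ∈ Y
  fix : ∀ v ∈ Y, π v = v
  lt : ∀ v, rk v < L
  inj : ∀ a ∈ Y, ∀ b ∈ Y, rk a = rk b → a = b
  low : ∀ x, ∀ y ∈ E x, rk y < rk x
  sub : ∀ x, ∀ y ∈ E x, y ∈ Y
  card : ∀ x, (E x).card ≤ k
  cl : ∀ x, ∀ a ∈ E x, ∀ b ∈ E x, rk a < rk b → a ∈ E b
  edge : ∀ u ∈ S, ∀ v ∈ S, H.Adj u v → π u ∉ Z → π v ∉ Z → rk (π u) < rk (π v) → π u ∈ E (π v)

theorem piece (D : ℝ) (r : ℕ) : ∃ (k : ℕ) (C : ℝ), 1 ≤ C ∧ ∀ (V : Type) [Finite V]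
    (H : SimpleGraph V) (d : V → V → ℝ) (hd : IsMet d) (S X Y Z : Set V),
    (H.induce S).Preconnected → DistortionLE (H.induce S) D →
    ¬ RootedMinor (grid r) (H.induce S) {v | v.1 ∈ X} → Y ⊆ S → Y ⊆ X ∪ Z →
    (S.Nonempty → Y.Nonempty) →
    ∃ (ι : Type) (_ : Fintype ι) (w : ι → ℝ) (π : ι → V → V) (rk : ι → V → ℕ)
      (E : ι → V → Finset V), (∀ i, 0 ≤ w i) ∧ ∑ i, w i = 1 ∧
      (∀ i, Loc H S Y Z k (Nat.card V + 1) (π i) (rk i) (E i)) ∧
      ∀ u ∈ S, ∀ v ∈ S, H.Adj u v →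
        ∑ i, w i * cst (Sym2.lift ⟨d, hd.symm⟩) d (π i) u v ≤ C * d u v := by
  classical
  obtain ⟨k, hk⟩ := thin_tw r
  obtain ⟨q, -, hq⟩ := H23.badKStmt H406.mono D
  obtain ⟨C, hC1, hC⟩ := conRetr2 q
  refine ⟨k, C, hC1, fun V _ H d hd S X Y Z hc hD hno hYS hY hne => ?_⟩
  rcases S.eq_empty_or_nonempty with hS | hS
  · have e : ∀ v, v ∉ S := fun v hv => by
      rw [hS] at hv
      exact hv
    exact ⟨Unit, inferInstance, fun _ => 1, fun _ => id, fun _ _ => 0, fun _ _ => ∅,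
      fun _ => zero_le_one, by simp, fun _ => ⟨fun v hv => absurd hv (e v), fun _ _ => rfl,
        fun _ => Nat.succ_pos _, fun v hv => absurd (hYS hv) (e v), by simp, by simp, by simp,
        by simp, fun v hv => absurd hv (e v)⟩, fun v hv => absurd hv (e v)⟩
  have : Nonempty S := hS.to_subtype
  have := Fintype.ofFinite S
  have hK : (H.induce S).Connected := ⟨hc⟩
  let m : Sym2 S → ℝ := torsoLen d S
  have hm : ∀ a b : S, m s(a, b) = d a.1 b.1 := fun a b => torsoLen_mk hd.symm a b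
  have hmpos : ∀ e ∈ (H.induce S).edgeSet, 0 < m e := by
    intro e
    induction e using Sym2.ind with
    | _ a b =>
      intro he
      have h : H.Adj a.1 b.1 := he
      rw [hm]
      exact hd.pos _ _ h.ne
  have hlow : ∀ a b : S, d a.1 b.1 ≤ pathDist (H.induce S) m a b := by
    intro a b
    have h1 := pathDist_semi (ℓ := m) (ρ := fun a b : S => d a.1 b.1) (K := 1) hK one_pos
      (fun x => hd.self _) (fun x y z => hd.tri _ _ _) (fun u v _ => by rw [one_mul, hm]) a b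
    rwa [one_mul] at h1
  obtain ⟨y0, hy0⟩ := hne hS
  obtain ⟨ι, _, w, π, h1, h2, h3, h4, h5, h6⟩ := hC S (H.induce S) m hK hmpos {v | v.1 ∈ Y}
    ⟨⟨y0, hYS hy0⟩, hy0⟩ fun u hu hmin => hq _ _ (comp_connected hu) hmin
      (hD.emb Subtype.val Subtype.val_injective (fun _ _ a => a) hK (comp_connected hu))
  have htw : ∀ i, TreewidthLE (rOff (H.induce S) {v | v.1 ∈ Z} (π i)) k := fun i =>
    hk S _ {v | v.1 ∈ X} _ _ (π i) ⟨h3 i, h4 i, h5 i⟩ (fun v hv => hY hv) hno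
  choose rk E r1 r2 r3 r4 r5 r6 using fun i => H263.exists_rank (htw i)
  let π' : ι → V → V := fun i => Function.extend Subtype.val (fun v => (π i v).1) id
  let rk' : ι → V → ℕ := fun i => Function.extend Subtype.val (rk i) fun _ => 0
  let E' : ι → V → Finset V := fun i => Function.extend Subtype.val
    (fun v => ((E i v).filter fun z => z.1 ∈ Y).image Subtype.val) fun _ => ∅
  have e1 : ∀ i (v : S), π' i v.1 = (π i v).1 := fun i v => Subtype.val_injective.extend_apply _ _ v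
  have e2 : ∀ i (v : S), rk' i v.1 = rk i v := fun i v => Subtype.val_injective.extend_apply _ _ v
  have e3 : ∀ i (v : S), E' i v.1 = ((E i v).filter fun z => z.1 ∈ Y).image Subtype.val :=
    fun i v => Subtype.val_injective.extend_apply _ _ v
  have o2 : ∀ i v, v ∉ S → rk' i v = 0 := fun i v hv =>
    Function.extend_apply' _ _ _ fun ⟨a, e⟩ => hv (e ▸ a.2)
  have o3 : ∀ i v, v ∉ S → E' i v = ∅ := fun i v hv =>
    Function.extend_apply' _ _ _ fun ⟨a, e⟩ => hv (e ▸ a.2)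
  have e4 : ∀ i x y, y ∈ E' i x → ∃ a b : S, a.1 = x ∧ b.1 = y ∧ b ∈ E i a ∧ y ∈ Y := by
    intro i x y hy
    by_cases hx : x ∈ S
    · rw [e3 i ⟨x, hx⟩] at hy
      obtain ⟨b, b1, rfl⟩ := Finset.mem_image.1 hy
      exact ⟨⟨x, hx⟩, b, rfl, rfl, (Finset.mem_filter.1 b1).1, (Finset.mem_filter.1 b1).2⟩
    · rw [o3 i x hx] at hy
      simp at hy
  have e5 : ∀ i (a b : S), b ∈ E i a → b.1 ∈ Y → b.1 ∈ E' i a.1 := fun i a b b1 b2 => by
    rw [e3]
    exact Finset.mem_image.2 ⟨b, Finset.mem_filter.2 ⟨b1, b2⟩, rfl⟩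
  refine ⟨ι, inferInstance, w, π', rk', E', h1, h2, fun i => ⟨fun v hv => ?_, fun v hv => ?_,
    fun v => ?_, fun a ha b hb e => ?_, fun x y hy => ?_, fun x y hy => ?_, fun x => ?_,
    fun x a ha b hb e => ?_, fun u hu v hv huv a b e => ?_⟩, fun u hu v hv huv => ?_⟩
  · rw [e1 i ⟨v, hv⟩]
    exact h3 i _
  · rw [e1 i ⟨v, hYS hv⟩, h4 i ⟨v, hYS hv⟩ hv]
  · by_cases hv : v ∈ S
    · rw [e2 i ⟨v, hv⟩]
      have a1 := r1 i ⟨v, hv⟩
      have a2 : Nat.card S ≤ Nat.card V := Finite.card_subtype_le _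
      rw [Nat.card_eq_fintype_card] at a2
      omega
    · rw [o2 i v hv]
      omega
  · rw [e2 i ⟨a, hYS ha⟩, e2 i ⟨b, hYS hb⟩] at e
    exact congrArg Subtype.val (r2 i e)
  · obtain ⟨a, b, rfl, rfl, c, -⟩ := e4 i x y hy
    rw [e2, e2]
    exact r3 i a b c
  · obtain ⟨a, b, -, -, -, c⟩ := e4 i x y hy
    exact c
  · by_cases hx : x ∈ S
    · rw [e3 i ⟨x, hx⟩]
      exact Finset.card_image_le.trans ((Finset.card_filter_le _ _).trans (r4 i _))
    · rw [o3 i x hx]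
      simp
  · obtain ⟨x1, a1, rfl, rfl, c1, c2⟩ := e4 i x a ha
    obtain ⟨x2, b1, e', rfl, c3, -⟩ := e4 i _ b hb
    have : x2 = x1 := Subtype.ext e'
    subst this
    rw [e2, e2] at e
    exact e5 i _ _ (r5 i _ _ c1 _ c3 e) c2
  · rw [e1 i ⟨u, hu⟩] at a e ⊢
    rw [e1 i ⟨v, hv⟩] at b e ⊢
    rw [e2, e2] at e
    refine e5 i _ _ (r6 i _ _ ⟨fun c => ?_, a, b, ⟨u, hu⟩, ⟨v, hv⟩, huv, rfl, rfl⟩ e) (h3 i _)
    rw [c] at e
    omega
  · have a1 := h6 ⟨u, hu⟩ ⟨v, hv⟩ huv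
    rw [hm] at a1
    refine le_trans (Finset.sum_le_sum fun i _ => mul_le_mul_of_nonneg_left ?_ (h1 i)) a1
    by_cases e : π i ⟨u, hu⟩ = π i ⟨v, hv⟩
    · rw [cst_eq e, cst_eq (by rw [e1 i ⟨u, hu⟩, e1 i ⟨v, hv⟩, e])]
    · rw [cst_ne e, cst_ne (by
        rw [e1 i ⟨u, hu⟩, e1 i ⟨v, hv⟩]
        exact fun c => e (Subtype.ext c)), e1 i ⟨u, hu⟩, e1 i ⟨v, hv⟩, hm, Sym2.lift_mk]
      have b1 := hlow ⟨u, hu⟩ (π i ⟨u, hu⟩)
      have b2 := hlow ⟨v, hv⟩ (π i ⟨v, hv⟩)
      show d u _ + d u v + d v _ ≤ _ + d u v + _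
      linarith

section nodes

variable (B Y Z : ℕ → Set V) (π : ℕ → V → V) (E : ℕ → V → Finset V)

/-- the centres of the refined tree -/
def cenOf (t : ℕ) : Option (V ⊕ V) → Set V
  | none => Z t
  | some (.inl x) => ({x} ∩ Y t ∪ E t x) ∪ Z t
  | some (.inr x) => {x} ∩ Y t ∪ Z t

/-- the bags of the refined tree -/
def bagOf (t : ℕ) : Option (V ⊕ V) → Set V
  | none => Z t
  | some (.inl x) => ({x} ∩ Y t ∪ E t x) ∪ Z t
  | some (.inr x) => {v | v ∈ B t ∧ π t v = x} ∪ Z t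

/-- the ranks inside a piece -/
def rkOf (rk : V → ℕ) : Option (V ⊕ V) → ℕ
  | none => 0
  | some (.inl x) => rk x + 1
  | some (.inr x) => rk x + 2

end nodes

theorem assemble (D : ℝ) (k N : ℕ) : ∃ K : ℝ, 1 ≤ K ∧ ∀ (V : Type) [Finite V]
    (H : SimpleGraph V) (m n L : ℕ) (B Y Z : ℕ → Set V) (π : ℕ → V → V) (rk : ℕ → V → ℕ)
    (E : ℕ → V → Finset V), H.Connected → Glued m H n B →
    (∀ t < n, DistortionLE (H.induce (B t)) D) →
    (∀ t < n, Adh B t ⊆ Z t ∧ Z t ⊆ Y t ∧ Y t ⊆ B t ∧ (Z t).ncard ≤ N) →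
    (∀ t < n, Loc H (B t) (Y t) (Z t) k L (π t) (rk t) (E t)) →
    (∀ s < n, 0 < s → ∃ t < s, Adh B s ⊆ B t ∧
      (Adh B s ⊆ Y t ∨ (Adh B s \ Z t).Subsingleton)) →
    ∃ F : SimpleGraph V, (F.Connected → DistortionLE F K) ∧ ∀ t < n, ∀ u ∈ B t,
      (u ≠ π t u → F.Adj u (π t u)) ∧ ∀ v ∈ B t, H.Adj u v →
        (π t u = π t v → F.Adj u v) ∧ (π t u ≠ π t v → F.Adj (π t u) (π t v)) := by
  classical
  obtain ⟨K, hK1, hK⟩ := tree_centre D (1 + k + N)
  refine ⟨K, hK1, fun V _ H m n L B Y Z π rk E hc h hD hZ hL hang => ?_⟩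
  obtain ⟨v0⟩ := hc.nonempty
  have hn : 0 < n := lt_of_le_of_lt (Nat.zero_le _) (h.it_lt v0)
  let bag : Fin n × Option (V ⊕ V) → Set V := fun i => bagOf B Y Z π E i.1 i.2
  let cen : Fin n × Option (V ⊕ V) → Set V := fun i => cenOf Y Z E i.1 i.2
  let R : Fin n × Option (V ⊕ V) → ℕ := fun i => (L + 2) * i.1 + rkOf (rk i.1) i.2
  let ρ : Fin n × Option (V ⊕ V) := (⟨0, hn⟩, none)
  let top : V → Fin n × Option (V ⊕ V) := fun v => (⟨h.it v, h.it_lt v⟩,
    if v ∈ Z (h.it v) then none else if v ∈ Y (h.it v) then some (.inl v)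
    else some (.inr (π (h.it v) v)))
  have hZb : ∀ (t : Fin n) a, Z t ⊆ cen (t, a) := by
    rintro t (_ | x | x)
    · exact subset_rfl
    · exact Set.subset_union_right
    · exact Set.subset_union_right
  have hsub : ∀ i, cen i ⊆ bag i := by
    rintro ⟨t, _ | x | x⟩
    · exact subset_rfl
    · exact subset_rfl
    · rintro v (⟨rfl, a⟩ | a)
      · exact Or.inl ⟨(hZ t t.2).2.2.1 a, (hL t t.2).fix _ a⟩
      · exact Or.inr a
  have hcY : ∀ i, cen i ⊆ Y i.1 := by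
    rintro ⟨t, _ | x | x⟩
    · exact (hZ t t.2).2.1
    · rintro v ((a | a) | a)
      · exact a.2
      · exact (hL t t.2).sub x v a
      · exact (hZ t t.2).2.1 a
    · rintro v (a | a)
      · exact a.2
      · exact (hZ t t.2).2.1 a
  have hbB : ∀ i, bag i ⊆ B i.1 := by
    rintro ⟨t, _ | x | x⟩
    · exact (hcY (t, none)).trans (hZ t t.2).2.2.1
    · exact (hcY (t, some (.inl x))).trans (hZ t t.2).2.2.1
    · rintro v (a | a)
      · exact a.1
      · exact (hZ t t.2).2.2.1 ((hZ t t.2).2.1 a)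
  have hit : ∀ (t : Fin n), ∀ v ∈ B t, v ∉ Adh B t → t = ⟨h.it v, h.it_lt v⟩ := by
    intro t v hv hv'
    by_contra e
    exact hv' ((h.mem_adh_iff t.2).2
      ⟨hv, lt_of_le_of_ne (h.it_le t.2 hv) fun a => e (Fin.ext a.symm)⟩)
  have hR : ∀ (t : Fin n) a, rkOf (rk t) a < L + 2 := by
    rintro t (_ | x | x)
    · exact Nat.succ_pos _
    · have := (hL t t.2).lt x
      show rk t x + 1 < _
      omega
    · have := (hL t t.2).lt x
      show rk t x + 2 < _
      omega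
  have hmax : ∀ (t : Fin n) (Q : Set V), Q.Nonempty → Q ⊆ Y t →
      ∃ b ∈ Q, ∀ a ∈ Q, a = b ∨ rk t a < rk t b := by
    intro t Q h1 h2
    obtain ⟨b, b1, b2⟩ := Set.exists_max_image Q (rk t) (Set.toFinite _) h1
    refine ⟨b, b1, fun a ha => ?_⟩
    rcases (b2 a ha).lt_or_eq with c | c
    · exact Or.inr c
    · exact Or.inl ((hL t t.2).inj a (h2 ha) b (h2 b1) c)
  have place : ∀ s < n, 0 < s → ∃ j : Fin n × Option (V ⊕ V), j.1.val < s ∧ Adh B s ⊆ bag j ∧
      (Adh B s \ cen j).Subsingleton := by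
    intro s hs h0
    obtain ⟨t, ht, a1, a2⟩ := hang s hs h0
    have htn : t < n := ht.trans hs
    by_cases a3 : Adh B s ⊆ Y t
    · rcases (Adh B s \ Z t).eq_empty_or_nonempty with e | e
      · have a4 : Adh B s ⊆ Z t := Set.sdiff_eq_empty.1 e
        exact ⟨(⟨t, htn⟩, none), ht, a4, fun x hx => absurd (a4 hx.1) hx.2⟩
      · obtain ⟨b, b1, b2⟩ := hmax ⟨t, htn⟩ _ e fun x hx => a3 hx.1
        have a4 : Adh B s ⊆ bag (⟨t, htn⟩, some (.inl b)) := by
          intro x hx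
          by_cases c : x ∈ Z t
          · exact Or.inr c
          · rcases b2 x ⟨hx, c⟩ with c1 | c1
            · exact Or.inl (Or.inl ⟨c1, a3 hx⟩)
            · have e1 := (hL t htn).fix x (a3 hx)
              have e2 := (hL t htn).fix b (a3 b1.1)
              have := (hL t htn).edge x (a1 hx) b (a1 b1.1)
                (h.clique s hs x hx b b1.1 fun e => by rw [e] at c1; omega)
                (by rwa [e1]) (by rw [e2]; exact b1.2) (by rwa [e1, e2])
              rw [e1, e2] at this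
              exact Or.inl (Or.inr this)
        exact ⟨_, ht, a4, fun x hx => absurd (a4 hx.1) hx.2⟩
    · have a4 := a2.resolve_left a3
      obtain ⟨y, y1, y2⟩ := Set.not_subset.1 a3
      refine ⟨(⟨t, htn⟩, some (.inr (π t y))), ht, fun x hx => ?_,
        a4.anti fun x hx => ⟨hx.1, fun c => hx.2 (Or.inr c)⟩⟩
      by_cases c : x ∈ Z t
      · exact Or.inr c
      · have : x = y := a4 ⟨hx, c⟩ ⟨y1, fun c' => y2 ((hZ t htn).2.1 c')⟩
        exact Or.inl ⟨a1 hx, by rw [this]⟩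
  have topl : ∀ (t : Fin n), ∀ v ∈ Y t, v ∉ Z t → (t, some (.inl v)) = top v := by
    intro t v a b
    have e := hit t v ((hZ t t.2).2.2.1 a) fun c => b ((hZ t t.2).1 c)
    subst e
    exact Prod.ext rfl (by simp only [top]; rw [if_neg b, if_pos a])
  have key : ∀ i, ∃ j, (i ≠ ρ → R j < R i) ∧ (∀ v ∈ bag i, i ≠ top v → i ≠ ρ ∧ v ∈ bag j) ∧
      (i ≠ ρ → ∀ v ∈ bag i, v ∈ bag j → v ∈ cen i) ∧
      (i ≠ ρ → ∀ u ∈ bag i, ∀ v ∈ bag i, u ∈ bag j → v ∈ bag j → u ∉ cen j → v ∉ cen j →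
        u = v) := by
    rintro ⟨t, _ | x | x⟩
    · have tz : ∀ v ∈ Z t, (t, none) ≠ top v → v ∈ Adh B t := by
        intro v a b
        by_contra c
        have e := hit t v (hbB (t, none) a) c
        subst e
        exact b (Prod.ext rfl (by simp only [top]; rw [if_pos a]))
      rcases Nat.eq_zero_or_pos t.val with h0 | h0
      · have e : (t, none) = ρ := Prod.ext (Fin.ext h0) rfl
        refine ⟨ρ, fun a => absurd e a, fun v a b => ?_, fun a => absurd e a, fun a => absurd e a⟩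
        obtain ⟨s, hs, -⟩ := (tz v a b).2
        omega
      · obtain ⟨j, j1, j2, j3⟩ := place t t.2 h0
        have ne : (t, none) ≠ ρ := fun e => by
          have := congrArg (fun z : Fin n × Option (V ⊕ V) => z.1.val) e
          simp only [ρ] at this
          omega
        refine ⟨j, fun _ => ?_, fun v a b => ⟨ne, j2 (tz v a b)⟩, fun _ v a _ => a,
          fun _ u a v b c e f g => ?_⟩
        · have a1 := hR j.1 j.2
          have a2 : (L + 2) * (j.1.val + 1) ≤ (L + 2) * t.val := Nat.mul_le_mul_left _ j1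
          rw [Nat.mul_add, Nat.mul_one] at a2
          show (L + 2) * j.1.val + rkOf (rk j.1) j.2 < (L + 2) * t.val + 0
          omega
        · exact j3 ⟨⟨hbB _ a, _, j1, hbB _ c⟩, f⟩ ⟨⟨hbB _ b, _, j1, hbB _ e⟩, g⟩
    · have ne : (t, some (.inl x)) ≠ ρ := fun e => by simpa using congrArg Prod.snd e
      rcases (E t x : Set V).eq_empty_or_nonempty with e | e
      · refine ⟨(t, none), fun _ => ?_, fun v a b => ⟨ne, ?_⟩, fun _ v a _ => a,
          fun _ u _ v _ c _ f _ => absurd c f⟩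
        · show (L + 2) * t.val + 0 < (L + 2) * t.val + (rk t x + 1)
          omega
        · by_contra c
          rcases a with (⟨rfl, a⟩ | a) | a
          · exact b (topl t _ a c)
          · rw [e] at a
            exact a
          · exact c a
      · obtain ⟨y, y1, y2⟩ := hmax t _ e fun z hz => (hL t t.2).sub x z hz
        refine ⟨(t, some (.inl y)), fun _ => ?_, fun v a b => ⟨ne, ?_⟩, fun _ v a _ => a,
          fun _ u _ v _ c _ f _ => absurd c f⟩
        · have := (hL t t.2).low x y y1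
          show (L + 2) * t.val + (rk t y + 1) < (L + 2) * t.val + (rk t x + 1)
          omega
        · by_cases c : v ∈ Z t
          · exact Or.inr c
          rcases a with (⟨rfl, a⟩ | a) | a
          · exact absurd (topl t _ a c) b
          · rcases y2 v a with c1 | c1
            · exact Or.inl (Or.inl ⟨c1, (hL t t.2).sub x v a⟩)
            · exact Or.inl (Or.inr ((hL t t.2).cl x v a y y1 c1))
          · exact absurd a c
    · have ne : (t, some (.inr x)) ≠ ρ := fun e => by simpa using congrArg Prod.snd e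
      refine ⟨(t, some (.inl x)), fun _ => ?_, fun v a b => ⟨ne, ?_⟩, fun _ v a b => ?_,
        fun _ u _ v _ c _ f _ => absurd c f⟩
      · show (L + 2) * t.val + (rk t x + 1) < (L + 2) * t.val + (rk t x + 2)
        omega
      · by_cases c : v ∈ Z t
        · exact Or.inr c
        obtain ⟨a1, a2⟩ := a.resolve_right c
        by_cases c' : v ∈ Y t
        · exact Or.inl (Or.inl ⟨((hL t t.2).fix v c').symm.trans a2, c'⟩)
        · have e := hit t v a1 fun f => c ((hZ t t.2).1 f)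
          subst e
          refine (b (Prod.ext rfl ?_)).elim
          simp only [top]
          rw [if_neg c, if_neg c', a2]
      · rcases a with a | a
        · have c' : v ∈ Y t := hcY (t, some (.inl x)) b
          exact Or.inl ⟨((hL t t.2).fix v c').symm.trans a.2, c'⟩
        · exact Or.inr a
  choose par p1 p2 p3 p4 using key
  have hRT : RT ρ par R bag cen top := by
    refine ⟨p1, fun v => ?_, fun v i => p2 i v, hsub, p3, p4⟩
    by_cases a : v ∈ Z (h.it v)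
    · exact hsub _ (hZb _ _ a)
    · by_cases b : v ∈ Y (h.it v)
      · rw [← topl ⟨h.it v, h.it_lt v⟩ v b a]
        exact Or.inl (Or.inl ⟨rfl, b⟩)
      · simp only [top]
        rw [if_neg a, if_neg b]
        exact Or.inl ⟨h.it_mem v, rfl⟩
  have one : ∀ (t : ℕ) (x : V), ({x} ∩ Y t).ncard ≤ 1 := fun t x =>
    (Set.ncard_le_ncard Set.inter_subset_left).trans (Set.ncard_singleton x).le
  refine ⟨fill H bag cen, hK V _ H ρ par R bag cen top hRT ?_ ?_, fun t ht u hu => ⟨fun a => ?_,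
    fun v hv huv => ⟨fun a => ?_, fun a => ?_⟩⟩⟩
  · rintro ⟨t, _ | x | x⟩
    · exact (hZ t t.2).2.2.2.trans (Nat.le_add_left _ _)
    · refine (Set.ncard_union_le _ _).trans (add_le_add ((Set.ncard_union_le _ _).trans
        (add_le_add (one _ _) ?_)) (hZ t t.2).2.2.2)
      rw [Set.ncard_coe_finset]
      exact (hL t t.2).card x
    · exact (Set.ncard_union_le _ _).trans
        (add_le_add ((one _ _).trans (Nat.le_add_right _ _)) (hZ t t.2).2.2.2)
  · intro i W _ G φ a1 a2 a3 a4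
    obtain ⟨x⟩ := a1.nonempty
    have : Nonempty (B i.1) := ⟨⟨φ x, hbB i (a3 x).1⟩⟩
    exact (hD i.1 i.1.2).emb (fun x => ⟨φ x, hbB i (a3 x).1⟩)
      (fun x y e => a2 (congrArg Subtype.val e)) a4
      ⟨K5.GX.H43.CX.bag_conn h hc.preconnected _ i.1.2⟩ a1
  · have b : π t u ∈ cen (⟨t, ht⟩, some (.inr (π t u))) := Or.inl ⟨rfl, (hL t ht).mem u hu⟩
    exact ⟨a, (⟨t, ht⟩, some (.inr (π t u))), Or.inl ⟨hu, rfl⟩, hsub _ b, Or.inr (Or.inr b)⟩
  · exact ⟨huv.ne, (⟨t, ht⟩, some (.inr (π t u))), Or.inl ⟨hu, rfl⟩, Or.inl ⟨hv, a.symm⟩,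
      Or.inl huv⟩
  · have self : ∀ z ∈ B t, π t z ∈ cen (⟨t, ht⟩, some (.inl (π t z))) := fun z hz =>
      Or.inl (Or.inl ⟨rfl, (hL t ht).mem z hz⟩)
    have fin : ∀ y ∈ B t, ∀ z ∈ B t, π t y ≠ π t z →
        π t y ∈ cen (⟨t, ht⟩, some (.inl (π t z))) → (fill H bag cen).Adj (π t y) (π t z) :=
      fun y _ z hz b c => ⟨b, (⟨t, ht⟩, some (.inl (π t z))), c, self z hz, Or.inr (Or.inl c)⟩
    by_cases b : π t u ∈ Z t
    · exact fin u hu v hv a (Or.inr b)
    by_cases c : π t v ∈ Z t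
    · exact (fin v hv u hu a.symm (Or.inr c)).symm
    rcases lt_trichotomy (rk t (π t u)) (rk t (π t v)) with e | e | e
    · exact fin u hu v hv a (Or.inl (Or.inr ((hL t ht).edge u hu v hv huv b c e)))
    · exact absurd ((hL t ht).inj _ ((hL t ht).mem u hu) _ ((hL t ht).mem v hv) e) a
    · exact (fin v hv u hu a.symm
        (Or.inl (Or.inr ((hL t ht).edge v hv u hu huv.symm c b e)))).symm

theorem marg {n : ℕ} {ι : Fin n → Type} [∀ t, Fintype (ι t)] (w : ∀ t, ι t → ℝ)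
    (hw : ∀ t, ∑ i, w t i = 1) (s : Fin n) (g : ι s → ℝ) :
    ∑ ω : ∀ t, ι t, (∏ t, w t (ω t)) * g (ω s) = ∑ i, w s i * g i := by
  classical
  have h1 := Fintype.prod_sum (Function.update w s fun i => w s i * g i)
  rw [← Finset.mul_prod_erase _ _ (Finset.mem_univ s), Function.update_self,
    Finset.prod_eq_one (fun t ht => by
      rw [Function.update_of_ne (Finset.ne_of_mem_erase ht)]
      exact hw t), mul_one] at h1
  rw [h1]
  refine Finset.sum_congr rfl fun ω _ => ?_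
  have h2 : ∏ t ∈ Finset.univ.erase s, Function.update w s (fun i => w s i * g i) t (ω t) =
      ∏ t ∈ Finset.univ.erase s, w t (ω t) := Finset.prod_congr rfl fun t ht => by
    rw [Function.update_of_ne (Finset.ne_of_mem_erase ht)]
  rw [← Finset.mul_prod_erase _ (fun t => w t (ω t)) (Finset.mem_univ s),
    ← Finset.mul_prod_erase _ (fun t => Function.update w s (fun i => w s i * g i) t (ω t))
      (Finset.mem_univ s), h2, Function.update_self]
  ring

/-- **Clique sums with thin sets of attachments.** -/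
theorem thin_core (D : ℝ) (r c : ℕ) : ∃ C : ℝ, ∀ (V : Type) [Finite V]
    (H : SimpleGraph V) (m n : ℕ) (B A X : ℕ → Set V), H.Connected → Glued m H n B →
    (∀ t < n, DistortionLE (H.induce (B t)) D ∧ {v : B t | v.1 ∈ A t}.ncard ≤ c ∧
      ¬ RootedMinor (grid r) (H.induce (B t)) {v | v.1 ∈ X t}) →
    (∀ s < n, 0 < s → ∃ t < s, Adh B s ⊆ B t ∧
      (Adh B s ⊆ A t ∪ X t ∪ Adh B t ∨ (Adh B s \ (A t ∪ Adh B t)).Subsingleton)) →
    DistortionLE H C := by
  classical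
  obtain ⟨N, hN⟩ := P235T.clique_bd D
  obtain ⟨k, C, hC1, hC⟩ := piece D r
  obtain ⟨K, hK1, hK⟩ := assemble D k (c + N + 1)
  refine ⟨K * (1 + 2 * C), ?_⟩
  intro V _ H m n B A X hc h hP hang ℓ hℓ
  have hd := pathDist_isMet hc hℓ
  set d := pathDist H ℓ with hdd
  have hcon := K5.GX.H43.CX.bag_conn h hc.preconnected
  have hZ : ∀ t, ∃ Z : Set V, t < n → A t ∩ B t ⊆ Z ∧ Adh B t ⊆ Z ∧ Z ⊆ B t ∧
      Z.ncard ≤ c + N + 1 ∧ ((B t).Nonempty → Z.Nonempty) := by
    intro t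
    rcases (B t).eq_empty_or_nonempty with e | ⟨b, hb⟩
    · exact ⟨B t, fun _ => ⟨Set.inter_subset_right, fun v hv => hv.1, subset_rfl,
        by rw [e, Set.ncard_empty]; omega, id⟩⟩
    · refine ⟨insert b (A t ∩ B t ∪ Adh B t), fun ht => ⟨fun v hv => Or.inr (Or.inl hv),
        fun v hv => Or.inr (Or.inr hv), ?_, ?_, fun _ => ⟨b, Or.inl rfl⟩⟩⟩
      · rintro v (rfl | hv | hv)
        · exact hb
        · exact hv.2
        · exact hv.1
      · refine (Set.ncard_insert_le _ _).trans (Nat.succ_le_succ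
          ((Set.ncard_union_le _ _).trans (add_le_add ?_ ?_)))
        · refine le_trans (le_of_eq ?_) (hP t ht).2.1
          rw [← Set.ncard_image_of_injective _ Subtype.val_injective]
          congr 1
          ext v
          exact ⟨fun a => ⟨⟨v, a.2⟩, a.1, rfl⟩, fun ⟨a, a1, a2⟩ => a2 ▸ ⟨a1, a.2⟩⟩
        · have : Nonempty (B t) := ⟨⟨b, hb⟩⟩
          exact hN V H (B t) (Adh B t) (fun W _ G φ a1 a2 a3 =>
            (hP t ht).1.emb φ a2 a3 ⟨hcon t ht⟩ a1) (fun v hv => hv.1) (h.clique t ht)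
  choose Z hZ using hZ
  let Y : ℕ → Set V := fun t => X t ∩ B t ∪ Z t
  have hYB : ∀ t < n, Y t ⊆ B t := fun t ht =>
    Set.union_subset Set.inter_subset_right (hZ t ht).2.2.1
  choose ι inst w π rk E w0 w1 hL hcost using fun t : Fin n =>
    hC V H d hd (B t) (X t) (Y t) (Z t) (hcon t t.2) (hP t t.2).1 (hP t t.2).2.2 (hYB t t.2)
      (Set.union_subset_union_left _ Set.inter_subset_left)
      fun a => ((hZ t t.2).2.2.2.2 a).mono Set.subset_union_right
  have hF : ∀ ω : ∀ t, ι t, ∃ F : SimpleGraph V, (F.Connected → DistortionLE F K) ∧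
      ∀ t : Fin n, ∀ u ∈ B t, (u ≠ π t (ω t) u → F.Adj u (π t (ω t) u)) ∧ ∀ v ∈ B t, H.Adj u v →
        (π t (ω t) u = π t (ω t) v → F.Adj u v) ∧
        (π t (ω t) u ≠ π t (ω t) v → F.Adj (π t (ω t) u) (π t (ω t) v)) := by
    intro ω
    obtain ⟨F, f1, f2⟩ := hK V H m n (Nat.card V + 1) B Y Z
      (fun t => if ht : t < n then π ⟨t, ht⟩ (ω _) else id)
      (fun t => if ht : t < n then rk ⟨t, ht⟩ (ω _) else fun _ => 0)
      (fun t => if ht : t < n then E ⟨t, ht⟩ (ω _) else fun _ => ∅) hc h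
      (fun t ht => (hP t ht).1)
      (fun t ht => ⟨(hZ t ht).2.1, Set.subset_union_right, hYB t ht, (hZ t ht).2.2.2.1⟩)
      (fun t ht => by
        simp only [dif_pos ht]
        exact hL ⟨t, ht⟩ (ω _))
      (fun s hs h0 => by
        obtain ⟨t, ht, a1, a2⟩ := hang s hs h0
        have htn := ht.trans hs
        refine ⟨t, ht, a1, a2.imp (fun a v hv => ?_) fun a => a.anti fun v hv => ⟨hv.1, ?_⟩⟩
        · rcases a hv with (b | b) | b
          · exact Or.inr ((hZ t htn).1 ⟨b, a1 hv⟩)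
          · exact Or.inl ⟨b, a1 hv⟩
          · exact Or.inr ((hZ t htn).2.1 b)
        · rintro (b | b)
          · exact hv.2 ((hZ t htn).1 ⟨b, a1 hv.1⟩)
          · exact hv.2 ((hZ t htn).2.1 b))
    refine ⟨F, f1, fun t u hu => ?_⟩
    have := f2 t t.2 u hu
    simp only [dif_pos t.2] at this
    exact this
  choose F f1 f2 using hF
  have inbag : ∀ u v, H.Adj u v → ∃ t : Fin n, u ∈ B t ∧ v ∈ B t := by
    intro u v huv
    rcases le_total (h.it u) (h.it v) with a | a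
    · exact ⟨⟨_, h.it_lt v⟩, h.edge huv a, h.it_mem v⟩
    · exact ⟨⟨_, h.it_lt u⟩, h.it_mem u, h.edge huv.symm a⟩
  have fc : ∀ ω, (F ω).Connected := by
    intro ω
    have := hc.nonempty
    refine ⟨fun u v => ?_⟩
    obtain ⟨q⟩ := hc.preconnected u v
    induction q with
    | nil => exact Reachable.refl _
    | @cons u a v hua q ih =>
      refine Reachable.trans ?_ ih
      obtain ⟨t, a1, a2⟩ := inbag u a hua
      have key : ∀ z ∈ B t, (F ω).Reachable z (π t (ω t) z) := fun z hz => by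
        by_cases e : z = π t (ω t) z
        · rw [← e]
        · exact ((f2 ω t z hz).1 e).reachable
      by_cases e : π t (ω t) u = π t (ω t) a
      · exact (((f2 ω t u a1).2 a a2 hua).1 e).reachable
      · exact ((key u a1).trans (((f2 ω t u a1).2 a a2 hua).2 e).reachable).trans (key a a2).symm
  let lm : Sym2 V → ℝ := Sym2.lift ⟨d, hd.symm⟩
  have hlm : ∀ u v, lm s(u, v) = d u v := fun u v => Sym2.lift_mk _ _ _
  have hpos : ∀ ω, ∀ e ∈ (F ω).edgeSet, 0 < lm e := by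
    intro ω e
    induction e using Sym2.ind with
    | _ a b =>
      intro he
      have h : (F ω).Adj a b := he
      rw [hlm]
      exact hd.pos _ _ h.ne
  have fd := fun ω => pathDist_isMet (fc ω) (hpos ω)
  have hlow : ∀ ω a b, d a b ≤ pathDist (F ω) lm a b := by
    intro ω a b
    have h1 := pathDist_semi (ℓ := lm) (ρ := d) (K := 1) (fc ω) one_pos hd.self hd.tri
      (fun u v _ => by rw [one_mul, hlm]) a b
    rwa [one_mul] at h1
  have hadj : ∀ ω a b, (F ω).Adj a b → pathDist (F ω) lm a b ≤ d a b := fun ω a b e =>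
    (pathDist_adj (hpos ω) e).trans (hlm a b).le
  have hup : ∀ ω (t : Fin n), ∀ u ∈ B t, ∀ v ∈ B t, H.Adj u v →
      pathDist (F ω) lm u v ≤ d u v + 2 * cst lm d (π t (ω t)) u v := by
    intro ω t u hu v hv huv
    by_cases e : π t (ω t) u = π t (ω t) v
    · rw [cst_eq e, mul_zero, add_zero]
      exact hadj ω _ _ (((f2 ω t u hu).2 v hv huv).1 e)
    · have key : ∀ z ∈ B t, pathDist (F ω) lm z (π t (ω t) z) ≤ d z (π t (ω t) z) := by
        intro z hz
        by_cases e : z = π t (ω t) z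
        · rw [← e, (fd ω).self, hd.self]
        · exact hadj ω _ _ ((f2 ω t z hz).1 e)
      have a1 := key u hu
      have a2 := key v hv
      have a3 := hadj ω _ _ (((f2 ω t u hu).2 v hv huv).2 e)
      have a4 := (fd ω).tri u (π t (ω t) u) v
      have a5 := (fd ω).tri (π t (ω t) u) (π t (ω t) v) v
      have a6 := (fd ω).symm (π t (ω t) v) v
      have a7 := hd.tri (π t (ω t) u) u (π t (ω t) v)
      have a8 := hd.tri u v (π t (ω t) v)
      have a9 := hd.symm (π t (ω t) u) u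
      have a10 := hd.nonneg u v
      rw [cst_ne e, hlm]
      linarith
  have hρ : ∀ ω, ∃ ρ : V → V → ℝ, IsL1 ρ ∧ (∀ x y, pathDist (F ω) lm x y ≤ ρ x y) ∧
      ∀ x y, ρ x y ≤ K * pathDist (F ω) lm x y := by
    intro ω
    obtain ⟨ρ, h1, h2, h3, -⟩ := (f1 ω (fc ω) lm (hpos ω)).toL1S
    exact ⟨ρ, h1.isL1, h2, h3⟩
  choose ρ ρ1 ρ2 ρ3 using hρ
  let W : (∀ t, ι t) → ℝ := fun ω => ∏ t, w t (ω t)
  have W0 : ∀ ω, 0 ≤ W ω := fun ω => Finset.prod_nonneg fun t _ => w0 t _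
  have W1 : ∑ ω, W ω = 1 := by
    rw [← Fintype.prod_sum w]
    exact Finset.prod_eq_one fun t _ => w1 t
  have hI : IsL1 fun x y => ∑ ω, W ω * ρ ω x y :=
    IsL1.sum Finset.univ (fun ω (x y : V) => W ω * ρ ω x y) fun ω _ => (ρ1 ω).smul (W0 ω)
  have hK0 : 0 ≤ K := by linarith
  refine hI.embeds (fun x y => ?_) (pathDist_semi hc (by positivity) hI.self hI.tri fun u v huv => ?_)
  · calc d x y = ∑ ω, W ω * d x y := by rw [← Finset.sum_mul, W1, one_mul]
      _ ≤ _ := Finset.sum_le_sum fun ω _ =>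
        mul_le_mul_of_nonneg_left ((hlow ω x y).trans (ρ2 ω x y)) (W0 ω)
  · obtain ⟨t, a1, a2⟩ := inbag u v huv
    have b1 := marg w w1 t fun i => cst lm d (π t i) u v
    have b2 := hcost t u a1 v a2 huv
    have b3 : d u v ≤ ℓ s(u, v) := pathDist_adj hℓ huv
    calc ∑ ω, W ω * ρ ω u v
        ≤ ∑ ω, (K * d u v * W ω + 2 * K * (W ω * cst lm d (π t (ω t)) u v)) := by
          refine Finset.sum_le_sum fun ω _ => ?_
          have c1 := mul_le_mul_of_nonneg_left ((ρ3 ω u v).trans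
            (mul_le_mul_of_nonneg_left (hup ω t u a1 v a2 huv) hK0)) (W0 ω)
          refine c1.trans (le_of_eq ?_)
          ring
      _ = K * d u v + 2 * K * ∑ i, w t i * cst lm d (π t i) u v := by
          rw [Finset.sum_add_distrib, ← Finset.mul_sum, ← Finset.mul_sum, W1, mul_one, b1]
      _ ≤ K * d u v + 2 * K * (C * d u v) := by gcongr
      _ = K * (1 + 2 * C) * d u v := by ring
      _ ≤ _ := by gcongr

theorem RootedMinor.map {U W V : Type} {M : SimpleGraph U} {G : SimpleGraph W} {H : SimpleGraph V}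
    {X : Set W} {Y : Set V} (h : RootedMinor M G X) (f : W → V) (hf : Function.Injective f)
    (hadj : ∀ a b, G.Adj a b → H.Adj (f a) (f b)) (hX : ∀ x ∈ X, f x ∈ Y) : RootedMinor M H Y := by
  obtain ⟨μ, h1, h2, h3, h4⟩ := h
  refine ⟨fun a => f '' μ a, fun a => ?_, fun a b e => (Set.disjoint_image_iff hf).2 (h2 a b e),
    fun a b e => ?_, fun a => ?_⟩
  · exact (h1 a).map (⟨fun z => ⟨f z.1, z.1, z.2, rfl⟩, fun e => hadj _ _ e⟩ :
      G.induce (μ a) →g H.induce (f '' μ a)) fun ⟨_, z, hz, e⟩ => ⟨⟨z, hz⟩, Subtype.ext e⟩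
  · obtain ⟨x, hx, y, hy, e'⟩ := h3 a b e
    exact ⟨_, ⟨x, hx, rfl⟩, _, ⟨y, hy, rfl⟩, hadj _ _ e'⟩
  · obtain ⟨x, a1, a2⟩ := h4 a
    exact ⟨_, ⟨x, a1, rfl⟩, hX x a2⟩

/-- with levels -/
theorem thin_sum (D : ℝ) (r c j : ℕ) : ∃ C : ℝ, ∀ (V : Type) [Finite V]
    (H : SimpleGraph V), H.Connected →
    HungSum (fun _ B A X => DistortionLE B D ∧ A.ncard ≤ c ∧ ¬ RootedMinor (grid r) B X) j H →
    DistortionLE H C := by
  obtain ⟨K, hK⟩ := thin_core D r c
  obtain ⟨C, hC⟩ := P235T.level_ind K (j + 1)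
  refine ⟨C, ?_⟩
  rintro V _ H hc ⟨m, n, B, A, X, lev, h, hP, hang⟩
  have ex : ∀ s, ∃ t, t ≤ s ∧ (s < n → lev t ≤ lev s) ∧ (s < n → 0 < s → t < s ∧ Adh B s ⊆ B t ∧
      (lev t = lev s → Adh B s ⊆ A t ∪ X t ∪ Adh B t ∨
        (Adh B s \ (A t ∪ Adh B t)).Subsingleton)) := by
    intro s
    by_cases a : s < n ∧ 0 < s
    · obtain ⟨t, a1, a2, a3⟩ := hang s a.1 a.2
      exact ⟨t, a1.le, fun _ => a3.elim le_of_lt fun b => b.1.le, fun _ _ => ⟨a1, a2, fun e =>
        (a3.resolve_left (by omega)).2⟩⟩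
    · exact ⟨s, le_rfl, fun _ => le_rfl, fun b c => absurd ⟨b, c⟩ a⟩
  choose par p1 hm p3 using ex
  let T : BTree n B := ⟨par, Nat.le_zero.1 (p1 0), p1, fun t a b => (p3 t b a).1,
    fun t a b => (p3 t b a).2.1⟩
  obtain ⟨v⟩ := hc.nonempty
  have hn : 0 < n := lt_of_le_of_lt (Nat.zero_le _) (h.it_lt v)
  refine hC V H m n B h T lev j hm (fun t ht => (hP t ht).1) (fun ρ _ => ?_) 0 hn (by omega) V H id
    hc Function.injective_id (fun _ _ a => a) fun x => BTree.Desc.zero _ (h.it_lt x)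
  intro W _ G φ hG hφ hadj hx
  let B' : ℕ → Set W := fun t => {x | (T.Desc ρ t ∧ lev t = lev ρ) ∧ φ x ∈ B t}
  have hit : ∀ x, x ∈ B' (h.it (φ x)) := fun x => ⟨hx x, h.it_mem _⟩
  have adh : ∀ t x, x ∈ Adh B' t → φ x ∈ Adh B t := fun t x ⟨h1, s, hs, h2⟩ => ⟨h1.2, s, hs, h2.2⟩
  have hle : G ≤ H.comap φ := fun x y hxy => hadj x y hxy
  have hH : (H.comap φ).Connected := hG.mono hle
  have hg : Glued m (H.comap φ) n B' := by
    refine ⟨fun x => ⟨_, h.it_lt _, hit x⟩, fun t ht => ?_, fun t ht u hu v hv huv => ?_,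
      fun t ht u v hu hu' hv hv' => ?_⟩
    · exact (Set.ncard_le_ncard_of_injOn φ (adh t) hφ.injOn).trans (h.card t ht)
    · exact h.clique t ht _ (adh t u hu) _ (adh t v hv) (hφ.ne huv)
    · obtain ⟨s, hs, h2⟩ := hv
      exact h.sep t ht (φ u) (φ v) hu.2
        (fun a => hu' ⟨_, (h.mem_bef_iff ht.le).1 a, hit u⟩) ⟨s, hs, h2.2⟩ fun a => hv' ⟨hu.1, a⟩
  refine (hK W (H.comap φ) m n B' (fun t => φ ⁻¹' A t) (fun t => φ ⁻¹' X t) hH hg
    (fun t ht => ?_) fun s hs h0 => ?_).emb id Function.injective_id (fun _ _ a => hle a) hH hG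
  · have hψ : Function.Injective fun z : B' t => (⟨φ z.1, z.2.2⟩ : B t) :=
      fun a b e => Subtype.ext (hφ (congrArg (fun z : B t => z.1) e))
    obtain ⟨-, a1, a2, a3⟩ := hP t ht
    refine ⟨?_, (Set.ncard_le_ncard_of_injOn (t := {v : B t | v.1 ∈ A t})
      (fun z : B' t => (⟨φ z.1, z.2.2⟩ : B t)) (fun _ a => a) hψ.injOn).trans a2,
      fun a => a3 (a.map _ hψ (fun _ _ b => b) fun _ b => b)⟩
    rcases isEmpty_or_nonempty (B' t) with e | ⟨⟨z⟩⟩
    · intro ℓ _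
      exact ⟨Unit, inferInstance, 0, fun x => isEmptyElim x, fun x => isEmptyElim x⟩
    · have : Nonempty (B' t) := ⟨z⟩
      have : Nonempty (B t) := ⟨⟨φ z.1, z.2.2⟩⟩
      exact a1.emb _ hψ (fun _ _ b => b) ⟨K5.GX.H43.CX.bag_conn h hc.preconnected t ht⟩
        ⟨K5.GX.H43.CX.bag_conn hg hH.preconnected t ht⟩
  · rcases (Adh B' s).eq_empty_or_nonempty with he | ⟨x, h1, u, hu, h2⟩
    · refine ⟨0, h0, ?_, Or.inl ?_⟩ <;> rw [he] <;> exact Set.empty_subset _
    obtain ⟨a1, a2, a3⟩ := p3 s hs h0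
    have hp : par s < n := a1.trans hs
    have b1 : ρ ≤ u := h2.1.1.le
    have b2 : T.Desc ρ (par s) := h1.1.1.of_ne (by omega)
    have b3 : lev (par s) = lev ρ :=
      le_antisymm (h1.1.2 ▸ hm s hs) (P235T.lev_mono hm _ hp b2)
    have sub : Adh B' s ⊆ B' (par s) := fun y hy => ⟨⟨b2, b3⟩, a2 (adh s y hy)⟩
    have back : ∀ y ∈ Adh B' s, φ y ∈ Adh B (par s) → y ∈ Adh B' (par s) := fun y hy e =>
      ⟨sub hy, _, ((h.mem_adh_iff hp).1 e).2, hit y⟩
    refine ⟨par s, a1, sub, (a3 (b3.trans h1.1.2.symm)).imp (fun a y hy => ?_)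
      fun a y hy z hz => hφ (a ⟨adh s y hy.1, ?_⟩ ⟨adh s z hz.1, ?_⟩)⟩
    · exact (a (adh s y hy)).imp_right (back y hy)
    · exact fun e => hy.2 (e.imp_right (back y hy.1))
    · exact fun e => hz.2 (e.imp_right (back z hz.1))

end Vale.Agent.Q235
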