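import Vale.Agent.P235L.Retr

/-! P235: connected random retractions which pay for the way to the set (the proofs are those of
`ST/H200/Retr` and `P235L/Retr` with a larger cost). -/

namespace Vale.Agent.Q235

open SimpleGraph Vale.Agent.P235 Vale.Agent.P235.ST.H200R Vale.Agent.P235.ST.H742

variable {V : Type} {G : SimpleGraph V} {ℓ : Sym2 V → ℝ}

open Classical in
/-- the cost of an edge whose ends are sent to different points -/
noncomputable def cst (ℓ : Sym2 V → ℝ) (d : V → V → ℝ) (π : V → V) (u v : V) : ℝ :=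
  if π u = π v then 0 else d u (π u) + ℓ s(u, v) + d v (π v)

theorem cst_eq {d : V → V → ℝ} {π : V → V} {u v : V} (h : π u = π v) : cst ℓ d π u v = 0 :=
  if_pos h

theorem cst_ne {d : V → V → ℝ} {π : V → V} {u v : V} (h : π u ≠ π v) :
    cst ℓ d π u v = d u (π u) + ℓ s(u, v) + d v (π v) := if_neg h

theorem cst_le {d : V → V → ℝ} (hd : Mt G ℓ d) {u v : V} (hl : 0 ≤ ℓ s(u, v)) (π : V → V) :
    cst ℓ d π u v ≤ d u (π u) + ℓ s(u, v) + d v (π v) := by
  by_cases h : π u = π v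
  · rw [cst_eq h]
    have h1 := hd.nn u (π u)
    have h2 := hd.nn v (π v)
    linarith
  · rw [cst_ne h]

/-- an outcome -/
structure Out2 (G : SimpleGraph V) (ℓ : Sym2 V → ℝ) (X : Set V) (d : V → V → ℝ) (A : V → ℝ)
    (R : ℝ → ℝ) (Φ : ℝ → ℝ)
    (S : Set V) (f : V → V) (ι : Type) [Fintype ι] (w : ι → ℝ) (π : ι → V → V) : Prop where
  nn : ∀ j, 0 ≤ w j
  one : ∑ j, w j = 1
  ext : ∀ j, ∀ v ∈ S, π j v = f v
  mem : ∀ j v, π j v ∈ X
  con : ∀ j v, ∃ q : G.Walk v (π j v), ∀ z ∈ q.support, π j z = π j v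
  rad : ∀ v ∉ S, ∑ j, w j * d v (π j v) ≤ R (A v)
  pay : ∀ u v, u ∉ S → v ∉ S → G.Adj u v → ℓ s(u, v) ≤ A u → ℓ s(u, v) ≤ A v →
    ∑ j, w j * cst ℓ d (π j) u v ≤ ℓ s(u, v) * Φ (min (A u) (A v))

theorem stage2 {X : Set V} {d : V → V → ℝ} (hd : Mt G ℓ d) (hℓ : ∀ e ∈ G.edgeSet, 0 < ℓ e)
    {A : V → ℝ} (hA0 : ∀ v, 0 ≤ A v) (hAX : ∀ v, ∀ x ∈ X, A v ≤ d v x)
    (hAw : ∀ v, ∃ x ∈ X, ∃ p : G.Walk v x, len ℓ p ≤ 2 * A v)
    (hAl : ∀ u v, G.Adj u v → A v ≤ A u + ℓ s(u, v)) {b : ℝ} (hb : 2 ≤ b)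
    {D : ℝ} (hD : 0 < D) {Ω : Type} [Fintype Ω] [Nonempty Ω] (c : Ω → V → V)
    (hdiam : ∀ ω u v, u ∉ X → v ∉ X → ReachOff G X u v → c ω u = c ω v → d u v ≤ D)
    (hcut : ∀ u v, u ∉ X → v ∉ X → G.Adj u v →
      ({ω | c ω u ≠ c ω v}.ncard : ℝ) ≤ b / (2 * D) * Fintype.card Ω * ℓ s(u, v))
    {S : Set V} {f : V → V} (hst : St G X d (2 * D) S f)
    (ih : ∀ S f, St G X d (4 * D) S f → ∃ (ι : Type) (_ : Fintype ι) (w : ι → ℝ) (π : ι → V → V),
      Out2 G ℓ X d A (Rf b (2 * D)) (Pf b (2 * D)) S f ι w π) :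
    ∃ (ι : Type) (_ : Fintype ι) (w : ι → ℝ) (π : ι → V → V),
      Out2 G ℓ X d A (Rf b D) (Pf b D) S f ι w π := by
  classical
  have hn : (0 : ℝ) < Fintype.card Ω := by exact_mod_cast Fintype.card_pos
  have hb0 : 0 ≤ b := by linarith
  choose ι inst w π hout using fun ω => ih _ _ (upd_st hd hD hst (hdiam ω))
  have hupd := fun ω => upd_st hd hD hst (hdiam ω)
  -- radius of one vertex
  have hρ1 : ∀ ω v, v ∈ nS G ℓ D S (c ω) → ∑ j, w ω j * d v (π ω j v) ≤ 4 * D := by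
    intro ω v hv
    have : ∀ j, w ω j * d v (π ω j v) ≤ w ω j * (4 * D) := by
      intro j
      apply mul_le_mul_of_nonneg_left _ ((hout ω).nn j)
      rw [(hout ω).ext j v hv]
      exact (hupd ω).dist v hv
    refine (Finset.sum_le_sum fun j _ => this j).trans (le_of_eq ?_)
    rw [← Finset.sum_mul, (hout ω).one, one_mul]
  have hρ2 : ∀ ω v, ∑ j, w ω j * d v (π ω j v) ≤ 4 * D + Rf b (2 * D) (A v) := by
    intro ω v
    have h0 : 0 ≤ Rf b (2 * D) (A v) := Rf_nonneg hb0 (by linarith) (hA0 v)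
    by_cases hv : v ∈ nS G ℓ D S (c ω)
    · have := hρ1 ω v hv
      linarith
    · have := (hout ω).rad v hv
      linarith
  have hsum : ∀ g : (ω : Ω) → ι ω → ℝ,
      ∑ x : (ω : Ω) × ι ω, (Fintype.card Ω : ℝ)⁻¹ * w x.1 x.2 * g x.1 x.2 =
        ∑ ω, (Fintype.card Ω : ℝ)⁻¹ * ∑ j, w ω j * g ω j := by
    intro g
    rw [Fintype.sum_sigma]
    refine Finset.sum_congr rfl fun ω _ => ?_
    rw [Finset.mul_sum]
    exact Finset.sum_congr rfl fun j _ => mul_assoc _ _ _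
  refine ⟨(ω : Ω) × ι ω, inferInstance, fun x => (Fintype.card Ω : ℝ)⁻¹ * w x.1 x.2,
    fun x => π x.1 x.2, ?_, ?_, ?_, ?_, ?_, ?_, ?_⟩
  · rintro ⟨ω, j⟩
    exact mul_nonneg (inv_nonneg.2 hn.le) ((hout ω).nn j)
  · have := hsum fun _ _ => 1
    simp only [mul_one] at this
    rw [this]
    have h1 : ∀ ω, ∑ j, w ω j = 1 := fun ω => (hout ω).one
    simp only [h1]
    rw [Finset.sum_const, Finset.card_univ, nsmul_eq_mul, mul_one, mul_inv_cancel₀ hn.ne']
  · rintro ⟨ω, j⟩ v hv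
    show π ω j v = f v
    rw [(hout ω).ext j v (Or.inl hv), nf_in hv]
  · rintro ⟨ω, j⟩ v
    exact (hout ω).mem j v
  · rintro ⟨ω, j⟩ v
    exact (hout ω).con j v
  · intro v hv
    show ∑ x : (ω : Ω) × ι ω, (Fintype.card Ω : ℝ)⁻¹ * w x.1 x.2 * d v (π x.1 x.2 v) ≤ _
    rw [hsum fun ω j => d v (π ω j v)]
    obtain ⟨B, q, hq, hq1, hqA, hB, hBS⟩ := unass hℓ hA0 hAw hb hD c hcut hst.sub hv
    have h0 : 0 ≤ Rf b (2 * D) (A v) := Rf_nonneg hb0 (by linarith) (hA0 v)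
    have := avg2 (fun ω => ∑ j, w ω j * d v (π ω j v)) B ∅ (a := 4 * D)
      (r1 := Rf b (2 * D) (A v)) (r2 := 0) (q1 := q) (q2 := 0) h0 le_rfl ?_ hB (by simp)
    · refine this.trans ?_
      have := Rf_rec hb0 hD (hA0 v) hq hq1 hqA
      linarith
    · intro ω
      by_cases hω : ω ∈ B
      · rw [Set.indicator_of_mem hω]
        have := hρ2 ω v
        simpa using this
      · rw [Set.indicator_of_notMem hω]
        have := hρ1 ω v (hBS ω hω)
        simpa using this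
  · intro u v hu hv hadj hlu hlv
    show ∑ x : (ω : Ω) × ι ω, (Fintype.card Ω : ℝ)⁻¹ * w x.1 x.2 *
      cst ℓ d (π x.1 x.2) u v ≤ _
    rw [hsum fun ω j => cst ℓ d (π ω j) u v]
    have hl : 0 < ℓ s(u, v) := hℓ _ hadj
    have hm0 : 0 ≤ min (A u) (A v) := le_min (hA0 u) (hA0 v)
    have hP0 : 0 ≤ Pf b (2 * D) (min (A u) (A v)) := Pf_nonneg hb0 (by linarith) hm0
    have hr2 : 0 ≤ ℓ s(u, v) * Pf b (2 * D) (min (A u) (A v)) := mul_nonneg hl.le hP0
    have hun2 : ∀ ω, u ∉ nS G ℓ D S (c ω) → v ∉ nS G ℓ D S (c ω) →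
        ∑ j, w ω j * cst ℓ d (π ω j) u v ≤ ℓ s(u, v) * Pf b (2 * D) (min (A u) (A v)) :=
      fun ω h1 h2 => (hout ω).pay u v h1 h2 hadj hlu hlv
    by_cases h4 : 4 * D < min (A u) (A v)
    · have hno : ∀ ω t, min (A u) (A v) ≤ A t → t ∉ nS G ℓ D S (c ω) := by
        intro ω t ht hmem
        have h1 := (hupd ω).dist t hmem
        have h2 := hAX t _ ((hupd ω).mem t hmem)
        linarith
      have := avg2 (fun ω => ∑ j, w ω j * cst ℓ d (π ω j) u v) ∅ ∅
        (a := ℓ s(u, v) * Pf b (2 * D) (min (A u) (A v)))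
        (r1 := 0) (r2 := 0) (q1 := 0) (q2 := 0) le_rfl le_rfl ?_ (by simp) (by simp)
      · refine this.trans ?_
        have := mul_le_mul_of_nonneg_left (Pf_mono hb0 hD hm0) hl.le
        linarith
      · intro ω
        have := hun2 ω (hno ω u (min_le_left _ _)) (hno ω v (min_le_right _ _))
        simpa using this
    · rw [not_lt] at h4
      have hB : ∃ (B : Set Ω) (q : ℝ), 0 ≤ q ∧ q ≤ 1 ∧ q ≤ b * min (A u) (A v) / D ∧
          (B.ncard : ℝ) ≤ q * Fintype.card Ω ∧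
          ∀ ω ∉ B, u ∈ nS G ℓ D S (c ω) ∨ v ∈ nS G ℓ D S (c ω) := by
        rcases min_choice (A u) (A v) with hm | hm <;> rw [hm]
        · obtain ⟨B, q, h1, h2, h3, h5, h6⟩ := unass hℓ hA0 hAw hb hD c hcut hst.sub hu
          exact ⟨B, q, h1, h2, h3, h5, fun ω hω => Or.inl (h6 ω hω)⟩
        · obtain ⟨B, q, h1, h2, h3, h5, h6⟩ := unass hℓ hA0 hAw hb hD c hcut hst.sub hv
          exact ⟨B, q, h1, h2, h3, h5, fun ω hω => Or.inr (h6 ω hω)⟩
      obtain ⟨B, q, hq, hq1, hqA, hBn, hBS⟩ := hB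
      have hAA : A u + A v ≤ 3 * min (A u) (A v) := by
        have h1 := hAl u v hadj
        have h2 := hAl v u hadj.symm
        rw [Sym2.eq_swap] at h2
        rcases min_choice (A u) (A v) with hm | hm <;> rw [hm] <;> linarith
      have hlm : ℓ s(u, v) ≤ min (A u) (A v) := le_min hlu hlv
      have hr1 : 0 ≤ 44 * D + 240 * b * min (A u) (A v) := by positivity
      have hcost : ∀ ω, ∑ j, w ω j * cst ℓ d (π ω j) u v ≤
          44 * D + 240 * b * min (A u) (A v) := by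
        intro ω
        have h1 : ∑ j, w ω j * cst ℓ d (π ω j) u v ≤
            ∑ j, (w ω j * d u (π ω j u) + w ω j * ℓ s(u, v) + w ω j * d v (π ω j v)) := by
          refine Finset.sum_le_sum fun j _ => ?_
          rw [← mul_add, ← mul_add]
          apply mul_le_mul_of_nonneg_left _ ((hout ω).nn j)
          exact cst_le hd hl.le _
        rw [Finset.sum_add_distrib, Finset.sum_add_distrib, ← Finset.sum_mul, (hout ω).one,
          one_mul] at h1
        have h2 := hρ2 ω u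
        have h3 := hρ2 ω v
        have h5 := Rf_le hb0 (show 0 < 2 * D by linarith) (hA0 u)
        have h6 := Rf_le hb0 (show 0 < 2 * D by linarith) (hA0 v)
        have h7 : b * (A u + A v) ≤ b * (3 * min (A u) (A v)) :=
          mul_le_mul_of_nonneg_left hAA hb0
        nlinarith
      have := avg2 (fun ω => ∑ j, w ω j * cst ℓ d (π ω j) u v) {ω | c ω u ≠ c ω v} B
        (a := 0) (r1 := 44 * D + 240 * b * min (A u) (A v))
        (r2 := ℓ s(u, v) * Pf b (2 * D) (min (A u) (A v)))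
        (q1 := b / (2 * D) * ℓ s(u, v)) (q2 := q) hr1 hr2 ?_ ?_ hBn
      · refine this.trans ?_
        have := Pf_rec hb hD hm0 hq hq1 hqA hl.le h4
        linarith
      · intro ω
        by_cases hω : c ω u = c ω v
        · rw [Set.indicator_of_notMem (show ω ∉ {ω | c ω u ≠ c ω v} from fun h => h hω)]
          by_cases hun : u ∈ nS G ℓ D S (c ω)
          · obtain ⟨hvn, hfe⟩ := upd_same (f := f) hu hv hadj hω hun
            have h0 : ∑ j, w ω j * cst ℓ d (π ω j) u v = 0 := by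
              refine Finset.sum_eq_zero fun j _ => ?_
              rw [cst_eq (by rw [(hout ω).ext j u hun, (hout ω).ext j v hvn, hfe]), mul_zero]
            show ∑ j, w ω j * cst ℓ d (π ω j) u v ≤ _
            rw [h0]
            have : 0 ≤ B.indicator (fun _ => ℓ s(u, v) * Pf b (2 * D) (min (A u) (A v))) ω :=
              Set.indicator_nonneg (fun _ _ => hr2) ω
            linarith
          · have hvn : v ∉ nS G ℓ D S (c ω) := fun h =>
              hun (upd_same (f := f) hv hu hadj.symm hω.symm h).1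
            have hωB : ω ∈ B := by
              by_contra hne
              rcases hBS ω hne with h | h
              · exact hun h
              · exact hvn h
            rw [Set.indicator_of_mem hωB]
            have := hun2 ω hun hvn
            simpa using this
        · rw [Set.indicator_of_mem (show ω ∈ {ω | c ω u ≠ c ω v} from hω)]
          have : 0 ≤ B.indicator (fun _ => ℓ s(u, v) * Pf b (2 * D) (min (A u) (A v))) ω :=
            Set.indicator_nonneg (fun _ _ => hr2) ω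
          have h2 := hcost ω
          show ∑ j, w ω j * cst ℓ d (π ω j) u v ≤ _
          linarith
      · have := hcut u v (fun h => hu (hst.sub h)) (fun h => hv (hst.sub h)) hadj
        refine this.trans (le_of_eq ?_)
        ring

theorem base2 {X : Set V} (hX : X.Nonempty) {d : V → V → ℝ} (hd : Mt G ℓ d)
    (hℓ : ∀ e ∈ G.edgeSet, 0 < ℓ e) {A : V → ℝ} (hA0 : ∀ v, 0 ≤ A v)
    (hAw : ∀ v, ∃ x ∈ X, ∃ p : G.Walk v x, len ℓ p ≤ 2 * A v) {b : ℝ} (hb : 2 ≤ b)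
    {D M : ℝ} (hD : 0 < D) (hM : ∀ u v, d u v ≤ M) (hMA : ∀ v, 2 * A v ≤ M) (hMD : M ≤ D)
    {S : Set V} {f : V → V} (hst : St G X d (2 * D) S f) :
    ∃ (ι : Type) (_ : Fintype ι) (w : ι → ℝ) (π : ι → V → V),
      Out2 G ℓ X d A (Rf b D) (Pf b D) S f ι w π := by
  obtain ⟨x0, -⟩ := hX
  have hb0 : 0 ≤ b := by linarith
  let c : V → V := fun _ => x0
  have hupd := upd_st hd hD hst (c := c) (fun u v _ _ _ _ => (hM u v).trans hMD)
  have hall : ∀ v, v ∈ nS G ℓ D S c := by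
    intro v
    by_cases hv : v ∈ S
    · exact Or.inl hv
    · obtain ⟨x, hx, p, hp⟩ := hAw v
      obtain ⟨B, hB, hBS⟩ := walk_bad (Ω := Unit) hℓ (fun _ => c) (k := 0) le_rfl
        (X := X) (fun u v _ _ _ => by simp [c]) p hx
      have hB0 : B = ∅ := by
        rw [zero_mul] at hB
        have : B.ncard = 0 := by exact_mod_cast le_antisymm hB (Nat.cast_nonneg _)
        exact (Set.ncard_eq_zero (Set.toFinite B)).1 this
      obtain ⟨u, y, h1, h2, h3, h4⟩ := hBS () (by rw [hB0]; exact Set.notMem_empty _) S hst.sub hv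
      exact Or.inr ⟨y, h2, u, h1, h3, by linarith [hMA v]⟩
  refine ⟨Unit, inferInstance, fun _ => 1, fun _ => nf G ℓ D S c f, ?_, ?_, ?_, ?_, ?_, ?_, ?_⟩
  · intro _
    exact zero_le_one
  · simp
  · intro _ v hv
    exact nf_in hv
  · intro _ v
    exact hupd.mem v (hall v)
  · intro _ v
    obtain ⟨q, hq⟩ := hupd.con v (hall v)
    exact ⟨q, fun z hz => (hq z hz).2⟩
  · intro v hv
    have h1 := hupd.dist v (hall v)
    have h2 : 8 * D + 32 * b * A v ≤ Rf b D (A v) := le_max_right _ _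
    have h3 : 0 ≤ b * A v := mul_nonneg hb0 (hA0 v)
    simp only [Finset.univ_unique, one_mul, Finset.sum_const, Finset.card_singleton, one_smul]
    linarith
  · intro u v hu hv hadj _ _
    have h1 := (upd_same (D := D) (ℓ := ℓ) (f := f) hu hv hadj (c := c) rfl (hall u)).2
    have h2 : 0 ≤ ℓ s(u, v) * Pf b D (min (A u) (A v)) :=
      mul_nonneg (hℓ _ hadj).le (Pf_nonneg hb0 hD (le_min (hA0 u) (hA0 v)))
    simp only [Finset.univ_unique, one_mul, Finset.sum_const, Finset.card_singleton, one_smul]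
    rw [cst_eq h1]
    exact h2

theorem iter2 {X : Set V} (hX : X.Nonempty) {d : V → V → ℝ} (hd : Mt G ℓ d)
    (hℓ : ∀ e ∈ G.edgeSet, 0 < ℓ e)
    {A : V → ℝ} (hA0 : ∀ v, 0 ≤ A v) (hAX : ∀ v, ∀ x ∈ X, A v ≤ d v x)
    (hAw : ∀ v, ∃ x ∈ X, ∃ p : G.Walk v x, len ℓ p ≤ 2 * A v)
    (hAl : ∀ u v, G.Adj u v → A v ≤ A u + ℓ s(u, v)) {b : ℝ} (hb : 2 ≤ b)
    {M : ℝ} (hM : ∀ u v, d u v ≤ M) (hMA : ∀ v, 2 * A v ≤ M)
    (hcuts : ∀ D : ℝ, 0 < D → ∃ (Ω : Type) (_ : Fintype Ω) (_ : Nonempty Ω) (c : Ω → V → V),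
      (∀ ω u v, u ∉ X → v ∉ X → ReachOff G X u v → c ω u = c ω v → d u v ≤ D) ∧
      ∀ u v, u ∉ X → v ∉ X → G.Adj u v →
        ({ω | c ω u ≠ c ω v}.ncard : ℝ) ≤ b / (2 * D) * Fintype.card Ω * ℓ s(u, v)) :
    ∀ (m : ℕ) (D : ℝ), 0 < D → M ≤ D * 2 ^ m → ∀ (S : Set V) (f : V → V),
      St G X d (2 * D) S f → ∃ (ι : Type) (_ : Fintype ι) (w : ι → ℝ) (π : ι → V → V),
        Out2 G ℓ X d A (Rf b D) (Pf b D) S f ι w π := by
  intro m
  induction m with
  | zero =>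
    intro D hD hMD S f hst
    exact base2 hX hd hℓ hA0 hAw hb hD hM hMA (by simpa using hMD) hst
  | succ m ih =>
    intro D hD hMD S f hst
    obtain ⟨Ω, _, _, c, h1, h2⟩ := hcuts D hD
    refine stage2 hd hℓ hA0 hAX hAw hAl hb hD c h1 h2 hst fun S' f' hst' => ?_
    refine ih (2 * D) (by linarith) (by rw [pow_succ] at hMD; linarith) S' f' ?_
    have : 2 * (2 * D) = 4 * D := by ring
    rw [this]
    exact hst'

theorem retr2 [Finite V] {κ : ℝ} (hκ : 0 ≤ κ) (hc : G.Connected) (hℓ : ∀ e ∈ G.edgeSet, 0 < ℓ e) {X : Set V}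
    (hX : X.Nonempty)
    (hcuts : ∀ D ε : ℝ, 0 < D → 0 < ε →
      ∃ (Ω : Type) (_ : Fintype Ω) (_ : Nonempty Ω) (c : Ω → V → V),
      (∀ ω u v, u ∉ X → v ∉ X → ReachOff G X u v → c ω u = c ω v → pathDist G ℓ u v ≤ D) ∧
      ∀ u v, u ∉ X → v ∉ X → G.Adj u v →
        (({ω | c ω u ≠ c ω v}.ncard : ℕ) : ℝ) ≤
          (κ * ℓ s(u, v) / D + ε) * Fintype.card Ω) :
    ∃ (ι : Type) (_ : Fintype ι) (w : ι → ℝ) (π : ι → V → V), (∀ i, 0 ≤ w i) ∧ ∑ i, w i = 1 ∧
      (∀ i v, π i v ∈ X) ∧ (∀ i, ∀ x ∈ X, π i x = x) ∧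
      (∀ i v, ∃ q : G.Walk v (π i v), ∀ z ∈ q.support, π i z = π i v) ∧
      ∀ u v, G.Adj u v → ∑ i, w i * cst ℓ (pathDist G ℓ) (π i) u v ≤
        3000 * (2 * κ + 2) * (2 * κ + 2) * ℓ s(u, v) := by
  classical
  obtain ⟨b, hbκ⟩ : ∃ b : ℝ, b = 2 * κ + 2 := ⟨_, rfl⟩
  have hb2 : 2 ≤ b := by linarith
  rw [← hbκ]
  set d := pathDist G ℓ with hdd
  have hd : Mt G ℓ d := pd_mt hc hℓ
  -- the smallest edge
  obtain ⟨D0, hD0, hD0e⟩ : ∃ D0 : ℝ, 0 < D0 ∧ ∀ e ∈ G.edgeSet, D0 ≤ ℓ e := by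
    by_cases h : G.edgeSet.Nonempty
    · obtain ⟨e, he, hmin⟩ := Set.exists_min_image G.edgeSet ℓ (Set.toFinite _) h
      exact ⟨ℓ e, hℓ e he, hmin⟩
    · exact ⟨1, one_pos, fun e he => absurd ⟨e, he⟩ h⟩
  -- nearest point of X
  have hnear : ∀ v, ∃ x ∈ X, ∀ x' ∈ X, d v x ≤ d v x' := fun v =>
    Set.exists_min_image X (d v) (Set.toFinite _) hX
  choose xv hxv hxmin using hnear
  let A : V → ℝ := fun v => d v (xv v)
  have hA0 : ∀ v, 0 ≤ A v := fun v => hd.nn _ _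
  have hAX : ∀ v, ∀ x ∈ X, A v ≤ d v x := fun v x hx => hxmin v x hx
  have hAw : ∀ v, ∃ x ∈ X, ∃ p : G.Walk v x, len ℓ p ≤ 2 * A v := by
    intro v
    by_cases hv : v ∈ X
    · refine ⟨v, hv, Walk.nil, ?_⟩
      have := hA0 v
      simp only [len, Walk.edges_nil, List.map_nil, List.sum_nil]
      linarith
    · have : Nonempty (G.Walk v (xv v)) := hc.preconnected v (xv v)
      have hpos : D0 ≤ A v := by
        refine le_ciInf fun p => ?_
        have hne : v ≠ xv v := fun h => hv (by rw [h]; exact hxv v)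
        exact len_ge hℓ hD0e hne p
      have hlt : (⨅ p : G.Walk v (xv v), (p.edges.map ℓ).sum) < 2 * A v := by
        show A v < 2 * A v
        linarith
      obtain ⟨p, hp⟩ := exists_lt_of_ciInf_lt hlt
      exact ⟨xv v, hxv v, p, hp.le⟩
  have hAl : ∀ u v, G.Adj u v → A v ≤ A u + ℓ s(u, v) := by
    intro u v h
    have h1 := hAX v (xv u) (hxv u)
    have h2 := hd.tri v u (xv u)
    have h3 := hd.comm v u
    have h4 := hd.adj u v h
    show A v ≤ d u (xv u) + ℓ s(u, v)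
    linarith
  obtain ⟨M, hM⟩ : ∃ M, ∀ u v, d u v ≤ M := by
    obtain ⟨M, hM⟩ := (Set.finite_range fun p : V × V => d p.1 p.2).bddAbove
    exact ⟨M, fun u v => hM ⟨(u, v), rfl⟩⟩
  have hM0 : 0 ≤ M := by
    obtain ⟨x, -⟩ := hX
    exact (hd.nn x x).trans (hM x x)
  obtain ⟨m, hm⟩ := pow_unbounded_of_one_lt (2 * M / D0) (one_lt_two (α := ℝ))
  have hcuts' : ∀ D : ℝ, 0 < D →
      ∃ (Ω : Type) (_ : Fintype Ω) (_ : Nonempty Ω) (c : Ω → V → V),
      (∀ ω u v, u ∉ X → v ∉ X → ReachOff G X u v → c ω u = c ω v → d u v ≤ D) ∧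
      ∀ u v, u ∉ X → v ∉ X → G.Adj u v →
        ({ω | c ω u ≠ c ω v}.ncard : ℝ) ≤ b / (2 * D) * Fintype.card Ω * ℓ s(u, v) := by
    intro D hD
    obtain ⟨Ω, i1, i2, c, h1, h2⟩ := hcuts D (D0 / D) hD (by positivity)
    refine ⟨Ω, i1, i2, c, h1, fun u v hu hv hadj => (h2 u v hu hv hadj).trans ?_⟩
    have h3 : D0 / D ≤ ℓ s(u, v) / D := div_le_div_of_nonneg_right (hD0e _ hadj) hD.le
    have h4 : (κ * ℓ s(u, v) / D + D0 / D) * Fintype.card Ω ≤
        (κ * ℓ s(u, v) / D + ℓ s(u, v) / D) * Fintype.card Ω := by gcongr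
    refine h4.trans (le_of_eq ?_)
    rw [hbκ]
    field_simp
  have hst : St G X d (2 * D0) X id :=
    ⟨subset_rfl, fun _ _ => rfl, fun v hv => hv, fun v hv => ⟨Walk.nil, fun z hz => by
      rw [Walk.support_nil, List.mem_singleton] at hz
      subst hz
      exact ⟨hv, rfl⟩⟩, fun v _ => by
      show d v v ≤ _
      rw [hd.self]
      linarith⟩
  obtain ⟨ι, inst, w, π, hout⟩ := iter2 hX hd hℓ hA0 hAX hAw hAl (b := b) hb2
    (M := 2 * M) (fun u v => by have := hM u v; linarith)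
    (fun v => by have := hM v (xv v); show 2 * d v (xv v) ≤ _; linarith) hcuts' m D0 hD0
    (by rw [div_lt_iff₀ hD0] at hm; linarith) X id hst
  have hfix : ∀ i, ∀ x ∈ X, π i x = x := fun i x hx => hout.ext i x hx
  refine ⟨ι, inst, w, π, hout.nn, hout.one, hout.mem, hfix, hout.con, fun u v hadj => ?_⟩
  have hl : 0 < ℓ s(u, v) := hℓ _ hadj
  by_cases hcase : ℓ s(u, v) ≤ A u ∧ ℓ s(u, v) ≤ A v
  · have hAx : ∀ x ∈ X, A x ≤ 0 := fun x hx => by
      have := hAX x x hx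
      rwa [hd.self] at this
    have hu : u ∉ X := fun h => by have := hAx u h; linarith [hcase.1]
    have hv : v ∉ X := fun h => by have := hAx v h; linarith [hcase.2]
    refine (hout.pay u v hu hv hadj hcase.1 hcase.2).trans ?_
    have h1 : Pf b D0 (min (A u) (A v)) ≤ 3000 * b * b := by
      unfold Pf
      have h5 := min_le_right (b * min (A u) (A v) / D0) (4 * b)
      have h6 : b * (88 + 656 * min (b * min (A u) (A v) / D0) (4 * b)) ≤
          b * (88 + 656 * (4 * b)) := mul_le_mul_of_nonneg_left (by linarith) (by linarith)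
      nlinarith
    nlinarith [mul_le_mul_of_nonneg_left h1 hl.le]
  · have hr : ∀ v, ∑ j, w j * d v (π j v) ≤ 8 * D0 + 80 * b * A v := by
      intro v
      by_cases hv : v ∈ X
      · have : ∑ j, w j * d v (π j v) = 0 := by
          refine Finset.sum_eq_zero fun j _ => ?_
          rw [hfix j v hv, hd.self, mul_zero]
        have h2 := hA0 v
        have h3 : 0 ≤ b * A v := by positivity
        linarith
      · exact (hout.rad v hv).trans (Rf_le (by linarith) hD0 (hA0 v))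
    have hAA : A u + A v ≤ 3 * ℓ s(u, v) := by
      have h1 := hAl u v hadj
      have h2 := hAl v u hadj.symm
      rw [Sym2.eq_swap] at h2
      by_cases h3 : ℓ s(u, v) ≤ A u
      · have h4 : ¬ ℓ s(u, v) ≤ A v := fun h => hcase ⟨h3, h⟩
        linarith
      · linarith
    have h1 : ∑ j, w j * cst ℓ d (π j) u v ≤
        ∑ j, (w j * d u (π j u) + w j * ℓ s(u, v) + w j * d v (π j v)) := by
      refine Finset.sum_le_sum fun j _ => ?_
      rw [← mul_add, ← mul_add]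
      apply mul_le_mul_of_nonneg_left _ (hout.nn j)
      exact cst_le hd hl.le _
    rw [Finset.sum_add_distrib, Finset.sum_add_distrib, ← Finset.sum_mul, hout.one, one_mul] at h1
    have h2 := hr u
    have h3 := hr v
    have h4 := hD0e s(u, v) hadj
    have h5 : b * (A u + A v) ≤ b * (3 * ℓ s(u, v)) :=
      mul_le_mul_of_nonneg_left hAA (by linarith)
    have h6 : 0 ≤ (b - 2) * ℓ s(u, v) := mul_nonneg (by linarith) hl.le
    have h7 : 0 ≤ (b - 2) * (b * ℓ s(u, v)) := mul_nonneg (by linarith) (by positivity)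
    nlinarith

/-- connected random retractions onto a set whose complement has no `K_r` minor, paying for the way
to the set -/
theorem conRetr2 (r : ℕ) : ∃ C : ℝ, 1 ≤ C ∧ ∀ (V : Type) [Finite V] (G : SimpleGraph V)
    (ℓ : Sym2 V → ℝ), G.Connected → (∀ e ∈ G.edgeSet, 0 < ℓ e) → ∀ X : Set V, X.Nonempty →
    (∀ u ∉ X, Kr.NoK r (G.induce (compSet G X u))) →
    ∃ (ι : Type) (_ : Fintype ι) (w : ι → ℝ) (π : ι → V → V), (∀ i, 0 ≤ w i) ∧ ∑ i, w i = 1 ∧
      (∀ i v, π i v ∈ X) ∧ (∀ i, ∀ x ∈ X, π i x = x) ∧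
      (∀ i v, ∃ q : G.Walk v (π i v), ∀ z ∈ q.support, π i z = π i v) ∧
      ∀ u v, G.Adj u v → ∑ i, w i * cst ℓ (pathDist G ℓ) (π i) u v ≤ C * ℓ s(u, v) := by
  have hκ : (0 : ℝ) ≤ 8 * ((r : ℝ) + 2) ^ 3 := by positivity
  refine ⟨3000 * (2 * (8 * ((r : ℝ) + 2) ^ 3) + 2) * (2 * (8 * ((r : ℝ) + 2) ^ 3) + 2),
    by nlinarith, fun V _ G ℓ hc hℓ X hX hcomp =>
      retr2 hκ hc hℓ hX fun D ε hD hε => P235L.cuts hc hℓ hcomp hD hε⟩

end Vale.Agent.Q235
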